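import Vale.Agent.H37.Cotype.Chain

-- Frozen copy (only the import lines changed) of Vale/Agent/H37/CoreStmt.lean;
-- kept here so that the P138 hand-in has one self-contained import closure.

/-!
Statement of the weighted-cuts theorem (skeleton; the proof lives in `Core.lean`).
-/

namespace Vale.Agent.H37

open Finset Matrix

/-- The weighted-cuts form of metric Markov cotype two: points are families of `0/1`
indicators `u ω` with nonnegative weights `w ω` (an `L_1` space over finitely many cuts). -/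
def CoreCuts (K : ℝ) : Prop :=
  ∀ (V : Type) [Fintype V] [DecidableEq V] (π : V → ℝ) (A : Matrix V V ℝ), RevChain π A →
    ∀ (t : ℕ), 1 ≤ t →
    ∀ (Ω : Type) [Fintype Ω] (w : Ω → ℝ), (∀ ω, 0 ≤ w ω) →
    ∀ (u : Ω → V → ℝ), (∀ ω i, u ω i = 0 ∨ u ω i = 1) →
      ∃ v : Ω → V → ℝ, (∀ ω i, 0 ≤ v ω i ∧ v ω i ≤ 1) ∧
        ∑ i, π i * (∑ ω, w ω * |u ω i - v ω i|) ^ 2
          + (t : ℝ) * ∑ i, ∑ j, π i * A i j * (∑ ω, w ω * |v ω i - v ω j|) ^ 2
          ≤ K * ∑ i, ∑ j, π i * ((1 / (t : ℝ)) • ∑ s ∈ Finset.Icc 1 t, A ^ s) i j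
              * (∑ ω, w ω * |u ω i - u ω j|) ^ 2

end Vale.Agent.H37
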