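import Vale.Agent.H37.Cotype.Resolvent

-- Frozen copy (only the import lines changed) of Vale/Agent/H91/P138/Tail.lean, proved by helper91;
-- kept here so that the P138 hand-in has one self-contained import closure.

/-!
Step energies of a distance-like function along a stationary reversible chain, and the
comparison of long Cesaro windows (and of the resolvent kernel) with the window `1..t`.
-/

namespace Vale.Agent.H37

open Finset Matrix

variable {V : Type} [Fintype V] [DecidableEq V]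
variable {π : V → ℝ} {A : Matrix V V ℝ}

/-- The `s`-step energy `∑ π_a (A^s)_{ab} D(a,b)^2`. -/
noncomputable def stepEnergy (π : V → ℝ) (A : Matrix V V ℝ) (D : V → V → ℝ) (s : ℕ) : ℝ :=
  ∑ a, ∑ b, π a * (A ^ s) a b * D a b ^ 2

theorem stepEnergy_nonneg (h : RevChain π A) (D : V → V → ℝ) (s : ℕ) :
    0 ≤ stepEnergy π A D s := by
  unfold stepEnergy
  exact Finset.sum_nonneg fun a _ => Finset.sum_nonneg fun b _ =>
    mul_nonneg (mul_nonneg (h.pi_nonneg a) (h.pow_nonneg s a b)) (sq_nonneg _)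

/-- Triangle inequality through an intermediate point, for a product of two kernels. -/
theorem tri_kernel (P Q : Matrix V V ℝ) (hπ : ∀ a, 0 ≤ π a) (hP : ∀ a c, 0 ≤ P a c)
    (hQ : ∀ c b, 0 ≤ Q c b) (hQrow : ∀ c, ∑ b, Q c b = 1)
    (hPstat : ∀ c, ∑ a, π a * P a c = π c)
    (D : V → V → ℝ) (hD0 : ∀ a b, 0 ≤ D a b) (htri : ∀ a b c, D a c ≤ D a b + D b c) :
    ∑ a, ∑ b, π a * (P * Q) a b * D a b ^ 2
      ≤ 2 * ∑ a, ∑ c, π a * P a c * D a c ^ 2 + 2 * ∑ c, ∑ b, π c * Q c b * D c b ^ 2 := by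
  have hsq : ∀ a b c, D a b ^ 2 ≤ 2 * D a c ^ 2 + 2 * D c b ^ 2 := by
    intro a b c
    have h1 := htri a c b
    have h2 := hD0 a b
    nlinarith [sq_nonneg (D a c - D c b), hD0 a c, hD0 c b]
  have e1 : ∀ a, ∑ c, π a * P a c * D a c ^ 2
      = ∑ c, ∑ b, π a * P a c * Q c b * D a c ^ 2 := by
    intro a
    refine Finset.sum_congr rfl fun c _ => ?_
    have : ∑ b, π a * P a c * Q c b * D a c ^ 2 = π a * P a c * D a c ^ 2 * ∑ b, Q c b := by
      rw [Finset.mul_sum]; exact Finset.sum_congr rfl fun b _ => by ring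
    rw [this, hQrow, mul_one]
  have e2 : ∀ c, ∑ b, π c * Q c b * D c b ^ 2
      = ∑ b, ∑ a, π a * P a c * Q c b * D c b ^ 2 := by
    intro c
    refine Finset.sum_congr rfl fun b _ => ?_
    have : ∑ a, π a * P a c * Q c b * D c b ^ 2
        = (∑ a, π a * P a c) * (Q c b * D c b ^ 2) := by
      rw [Finset.sum_mul]; exact Finset.sum_congr rfl fun a _ => by ring
    rw [this, hPstat]; ring
  have s1 : ∑ a, ∑ b, ∑ c, π a * P a c * Q c b * (2 * D a c ^ 2 + 2 * D c b ^ 2)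
      = 2 * ∑ a, ∑ b, ∑ c, π a * P a c * Q c b * D a c ^ 2
        + 2 * ∑ a, ∑ b, ∑ c, π a * P a c * Q c b * D c b ^ 2 := by
    simp only [Finset.mul_sum, ← Finset.sum_add_distrib]
    exact Finset.sum_congr rfl fun a _ => Finset.sum_congr rfl fun b _ =>
      Finset.sum_congr rfl fun c _ => by ring
  have s2 : ∑ a, ∑ b, ∑ c, π a * P a c * Q c b * D a c ^ 2
      = ∑ a, ∑ c, ∑ b, π a * P a c * Q c b * D a c ^ 2 :=
    Finset.sum_congr rfl fun a _ => Finset.sum_comm
  have s3 : ∑ a, ∑ b, ∑ c, π a * P a c * Q c b * D c b ^ 2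
      = ∑ c, ∑ b, ∑ a, π a * P a c * Q c b * D c b ^ 2 := by
    calc ∑ a, ∑ b, ∑ c, π a * P a c * Q c b * D c b ^ 2
        = ∑ a, ∑ c, ∑ b, π a * P a c * Q c b * D c b ^ 2 :=
          Finset.sum_congr rfl fun a _ => Finset.sum_comm
      _ = ∑ c, ∑ a, ∑ b, π a * P a c * Q c b * D c b ^ 2 := Finset.sum_comm
      _ = ∑ c, ∑ b, ∑ a, π a * P a c * Q c b * D c b ^ 2 :=
          Finset.sum_congr rfl fun c _ => Finset.sum_comm
  calc ∑ a, ∑ b, π a * (P * Q) a b * D a b ^ 2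
      = ∑ a, ∑ b, ∑ c, π a * P a c * Q c b * D a b ^ 2 := by
        refine Finset.sum_congr rfl fun a _ => Finset.sum_congr rfl fun b _ => ?_
        rw [Matrix.mul_apply, Finset.mul_sum, Finset.sum_mul]
        exact Finset.sum_congr rfl fun c _ => by ring
    _ ≤ ∑ a, ∑ b, ∑ c, π a * P a c * Q c b * (2 * D a c ^ 2 + 2 * D c b ^ 2) := by
        refine Finset.sum_le_sum fun a _ => Finset.sum_le_sum fun b _ =>
          Finset.sum_le_sum fun c _ => ?_
        exact mul_le_mul_of_nonneg_left (hsq a b c)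
          (mul_nonneg (mul_nonneg (hπ a) (hP a c)) (hQ c b))
    _ = 2 * ∑ a, ∑ c, π a * P a c * D a c ^ 2 + 2 * ∑ c, ∑ b, π c * Q c b * D c b ^ 2 := by
        rw [s1, s2, s3]
        congr 2
        · exact Finset.sum_congr rfl fun a _ => (e1 a).symm
        · exact Finset.sum_congr rfl fun c _ => (e2 c).symm

theorem stepEnergy_add_le (h : RevChain π A) (D : V → V → ℝ) (hD0 : ∀ a b, 0 ≤ D a b)
    (htri : ∀ a b c, D a c ≤ D a b + D b c) (s r : ℕ) :
    stepEnergy π A D (s + r) ≤ 2 * stepEnergy π A D s + 2 * stepEnergy π A D r := by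
  unfold stepEnergy
  rw [pow_add]
  exact tri_kernel (A ^ s) (A ^ r) h.pi_nonneg (h.pow_nonneg s) (h.pow_nonneg r) (h.pow_row r)
    (h.pow_stat s) D hD0 htri

theorem tail_step (h : RevChain π A) (D : V → V → ℝ) (hD0 : ∀ a b, 0 ≤ D a b)
    (htri : ∀ a b c, D a c ≤ D a b + D b c) (t : ℕ) (m : ℕ) (hm : t ≤ m) :
    (t : ℝ) * stepEnergy π A D (m + 1)
      ≤ 2 * ∑ s ∈ Finset.Icc 1 m, stepEnergy π A D s
        + 2 * ∑ s ∈ Finset.Icc 1 t, stepEnergy π A D s := by
  have h1 : ∀ r ∈ Finset.Icc 1 t, stepEnergy π A D (m + 1)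
      ≤ 2 * stepEnergy π A D (m + 1 - r) + 2 * stepEnergy π A D r := by
    intro r hr
    simp only [Finset.mem_Icc] at hr
    have e : m + 1 = (m + 1 - r) + r := by omega
    conv_lhs => rw [e]
    exact stepEnergy_add_le h D hD0 htri _ _
  have h2 := Finset.sum_le_sum h1
  rw [Finset.sum_const, Nat.card_Icc, nsmul_eq_mul, Finset.sum_add_distrib, ← Finset.mul_sum,
    ← Finset.mul_sum] at h2
  simp only [Nat.add_sub_cancel] at h2
  have himg : ∑ r ∈ Finset.Icc 1 t, stepEnergy π A D (m + 1 - r)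
      = ∑ s ∈ (Finset.Icc 1 t).image (fun r => m + 1 - r), stepEnergy π A D s := by
    rw [Finset.sum_image]
    intro x hx y hy hxy
    simp only [Finset.mem_coe, Finset.mem_Icc] at hx hy
    have hxy' : m + 1 - x = m + 1 - y := hxy
    omega
  have hsub : (Finset.Icc 1 t).image (fun r => m + 1 - r) ⊆ Finset.Icc 1 m := by
    intro s hs
    simp only [Finset.mem_image, Finset.mem_Icc] at hs ⊢
    obtain ⟨r, ⟨hr1, hr2⟩, rfl⟩ := hs
    omega
  have h3 : ∑ r ∈ Finset.Icc 1 t, stepEnergy π A D (m + 1 - r)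
      ≤ ∑ s ∈ Finset.Icc 1 m, stepEnergy π A D s := by
    rw [himg]
    exact Finset.sum_le_sum_of_subset_of_nonneg hsub fun s _ _ => stepEnergy_nonneg h D s
  linarith

theorem tail_bound (h : RevChain π A) (D : V → V → ℝ) (hD0 : ∀ a b, 0 ≤ D a b)
    (htri : ∀ a b c, D a c ≤ D a b + D b c) (t : ℕ) (ht : 1 ≤ t) (m : ℕ) (hm : t ≤ m) :
    ∑ s ∈ Finset.Icc 1 m, stepEnergy π A D s
      ≤ 2 * (1 + 2 / (t : ℝ)) ^ (m - t) * ∑ s ∈ Finset.Icc 1 t, stepEnergy π A D s := by
  have htpos : (0 : ℝ) < t := by exact_mod_cast ht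
  have hFt : 0 ≤ ∑ s ∈ Finset.Icc 1 t, stepEnergy π A D s :=
    Finset.sum_nonneg fun s _ => stepEnergy_nonneg h D s
  have hq : (0 : ℝ) ≤ 1 + 2 / (t : ℝ) := by positivity
  have key : ∀ m, t ≤ m → ∑ s ∈ Finset.Icc 1 m, stepEnergy π A D s
        + ∑ s ∈ Finset.Icc 1 t, stepEnergy π A D s
      ≤ (1 + 2 / (t : ℝ)) ^ (m - t) * (2 * ∑ s ∈ Finset.Icc 1 t, stepEnergy π A D s) := by
    intro m hm
    induction m, hm using Nat.le_induction with
    | base => simp; linarith
    | succ m hm ih =>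
      have hstep := tail_step h D hD0 htri t m hm
      have hsucc : ∑ s ∈ Finset.Icc 1 (m + 1), stepEnergy π A D s
          = ∑ s ∈ Finset.Icc 1 m, stepEnergy π A D s + stepEnergy π A D (m + 1) :=
        Finset.sum_Icc_succ_top (by omega) _
      have hf : stepEnergy π A D (m + 1)
          ≤ 2 / (t : ℝ) * (∑ s ∈ Finset.Icc 1 m, stepEnergy π A D s
            + ∑ s ∈ Finset.Icc 1 t, stepEnergy π A D s) := by
        rw [div_mul_eq_mul_div, le_div_iff₀ htpos]
        linarith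
      have e : m + 1 - t = (m - t) + 1 := by omega
      rw [hsucc, e, pow_succ]
      calc ∑ s ∈ Finset.Icc 1 m, stepEnergy π A D s + stepEnergy π A D (m + 1)
            + ∑ s ∈ Finset.Icc 1 t, stepEnergy π A D s
          ≤ (1 + 2 / (t : ℝ)) * (∑ s ∈ Finset.Icc 1 m, stepEnergy π A D s
            + ∑ s ∈ Finset.Icc 1 t, stepEnergy π A D s) := by linarith
        _ ≤ (1 + 2 / (t : ℝ)) * ((1 + 2 / (t : ℝ)) ^ (m - t)
            * (2 * ∑ s ∈ Finset.Icc 1 t, stepEnergy π A D s)) :=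
          mul_le_mul_of_nonneg_left ih hq
        _ = (1 + 2 / (t : ℝ)) ^ (m - t) * (1 + 2 / (t : ℝ))
            * (2 * ∑ s ∈ Finset.Icc 1 t, stepEnergy π A D s) := by ring
  have := key m hm
  linarith

theorem resolvent_energy_le (h : RevChain π A) {α : ℝ} {G : Matrix V V ℝ}
    (hG : IsResolvent π A α G) (hα0 : 0 ≤ α) (hα1 : α < 1)
    (D : V → V → ℝ) (hD0 : ∀ a b, 0 ≤ D a b) (htri : ∀ a b c, D a c ≤ D a b + D b c)
    (hdiag : ∀ a, D a a = 0) (K : ℕ) (hK : 1 ≤ K) (hαK : α ^ K ≤ 1 / 4) :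
    ∑ a, ∑ b, π a * ((1 - α) * G a b) * D a b ^ 2
      ≤ (2 * (1 - α) + 1 / (K : ℝ)) * ∑ s ∈ Finset.Icc 1 (2 * K), stepEnergy π A D s := by
  have h1α : 0 < 1 - α := by linarith
  set Θ : ℝ := ∑ a, ∑ b, π a * ((1 - α) * G a b) * D a b ^ 2 with hΘ
  set F : ℝ := ∑ s ∈ Finset.Icc 1 (2 * K), stepEnergy π A D s with hF
  have hΘ0 : 0 ≤ Θ :=
    Finset.sum_nonneg fun a _ => Finset.sum_nonneg fun b _ =>
      mul_nonneg (mul_nonneg (h.pi_nonneg a) (mul_nonneg h1α.le (hG.nonneg a b))) (sq_nonneg _)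
  have hF0 : 0 ≤ F := Finset.sum_nonneg fun s _ => stepEnergy_nonneg h D s
  have hf0 : stepEnergy π A D 0 = 0 := by
    unfold stepEnergy
    refine Finset.sum_eq_zero fun a _ => Finset.sum_eq_zero fun b _ => ?_
    rw [pow_zero, Matrix.one_apply]
    by_cases hab : a = b
    · subst hab; rw [hdiag]; ring
    · simp [hab]
  -- expansion of Θ
  have hexp : ∀ K2 : ℕ, Θ = (1 - α) * ∑ k ∈ Finset.range K2, α ^ k * stepEnergy π A D k
      + α ^ K2 * ∑ a, ∑ b, π a * (A ^ K2 * ((1 - α) • G)) a b * D a b ^ 2 := by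
    intro K2
    have t1 : ∀ a b, π a * ((1 - α) * G a b) * D a b ^ 2
        = (1 - α) * ∑ k ∈ Finset.range K2, α ^ k * (π a * (A ^ k) a b * D a b ^ 2)
          + α ^ K2 * (π a * (A ^ K2 * ((1 - α) • G)) a b * D a b ^ 2) := by
      intro a b
      conv_lhs => rw [hG.expand_apply K2 a b]
      rw [Matrix.mul_smul, Matrix.smul_apply, smul_eq_mul, Finset.mul_sum, mul_add,
        Finset.mul_sum, mul_add, add_mul, Finset.mul_sum, Finset.sum_mul]
      congr 1
      · exact Finset.sum_congr rfl fun k _ => by ring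
      · ring
    rw [hΘ]
    simp only [t1, Finset.sum_add_distrib, ← Finset.mul_sum]
    congr 2
    unfold stepEnergy
    calc ∑ a, ∑ b, ∑ k ∈ Finset.range K2, α ^ k * (π a * (A ^ k) a b * D a b ^ 2)
        = ∑ a, ∑ k ∈ Finset.range K2, ∑ b, α ^ k * (π a * (A ^ k) a b * D a b ^ 2) :=
          Finset.sum_congr rfl fun a _ => Finset.sum_comm
      _ = ∑ k ∈ Finset.range K2, ∑ a, ∑ b, α ^ k * (π a * (A ^ k) a b * D a b ^ 2) :=
          Finset.sum_comm
      _ = ∑ k ∈ Finset.range K2, α ^ k * ∑ a, ∑ b, π a * (A ^ k) a b * D a b ^ 2 := by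
          simp only [Finset.mul_sum]
  -- the remainder
  have hrem : ∀ K2 : ℕ, ∑ a, ∑ b, π a * (A ^ K2 * ((1 - α) • G)) a b * D a b ^ 2
      ≤ 2 * stepEnergy π A D K2 + 2 * Θ := by
    intro K2
    have := tri_kernel (π := π) (A ^ K2) ((1 - α) • G) h.pi_nonneg (h.pow_nonneg K2)
      (fun c b => by
        rw [Matrix.smul_apply, smul_eq_mul]
        exact mul_nonneg h1α.le (hG.nonneg c b))
      (fun c => by
        simp only [Matrix.smul_apply, smul_eq_mul]
        exact smooth_row hG hα1 c)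
      (h.pow_stat K2) D hD0 htri
    simpa only [Matrix.smul_apply, smul_eq_mul, stepEnergy] using this
  -- the bound for each K2 in the window
  have hwin : ∀ K2 ∈ Finset.Ico K (2 * K), Θ ≤ 2 * (1 - α) * F + stepEnergy π A D K2 := by
    intro K2 hK2
    simp only [Finset.mem_Ico] at hK2
    have hS : ∑ k ∈ Finset.range K2, α ^ k * stepEnergy π A D k ≤ F := by
      have e0 : ∑ k ∈ (Finset.range K2).erase 0, α ^ k * stepEnergy π A D k
          = ∑ k ∈ Finset.range K2, α ^ k * stepEnergy π A D k :=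
        Finset.sum_erase _ (by rw [hf0, mul_zero])
      rw [← e0, hF]
      calc ∑ k ∈ (Finset.range K2).erase 0, α ^ k * stepEnergy π A D k
          ≤ ∑ k ∈ (Finset.range K2).erase 0, stepEnergy π A D k := by
            refine Finset.sum_le_sum fun k _ => ?_
            have : α ^ k ≤ 1 := pow_le_one₀ hα0 hα1.le
            nlinarith [stepEnergy_nonneg h D k]
        _ ≤ ∑ s ∈ Finset.Icc 1 (2 * K), stepEnergy π A D s := by
            refine Finset.sum_le_sum_of_subset_of_nonneg ?_ fun s _ _ => stepEnergy_nonneg h D s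
            intro k hk
            simp only [Finset.mem_erase, Finset.mem_range, Finset.mem_Icc] at hk ⊢
            omega
    have hpow : α ^ K2 ≤ 1 / 4 :=
      le_trans (pow_le_pow_of_le_one hα0 hα1.le hK2.1) hαK
    have hpow0 : 0 ≤ α ^ K2 := pow_nonneg hα0 K2
    have hR := hrem K2
    have hE := hexp K2
    have hfK2 := stepEnergy_nonneg h D K2
    have hR0 : 0 ≤ 2 * stepEnergy π A D K2 + 2 * Θ := by linarith
    have h3 : α ^ K2 * ∑ a, ∑ b, π a * (A ^ K2 * ((1 - α) • G)) a b * D a b ^ 2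
        ≤ 1 / 4 * (2 * stepEnergy π A D K2 + 2 * Θ) :=
      le_trans (mul_le_mul_of_nonneg_left hR hpow0) (mul_le_mul_of_nonneg_right hpow hR0)
    have h4 : (1 - α) * ∑ k ∈ Finset.range K2, α ^ k * stepEnergy π A D k ≤ (1 - α) * F :=
      mul_le_mul_of_nonneg_left hS h1α.le
    linarith
  -- sum over the window
  have hsum := Finset.sum_le_sum hwin
  rw [Finset.sum_const, Nat.card_Ico, nsmul_eq_mul, Finset.sum_add_distrib, Finset.sum_const,
    Nat.card_Ico, nsmul_eq_mul] at hsum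
  have hcard : 2 * K - K = K := by omega
  rw [hcard] at hsum
  have hwinF : ∑ K2 ∈ Finset.Ico K (2 * K), stepEnergy π A D K2 ≤ F := by
    rw [hF]
    refine Finset.sum_le_sum_of_subset_of_nonneg ?_ fun s _ _ => stepEnergy_nonneg h D s
    intro k hk
    simp only [Finset.mem_Ico, Finset.mem_Icc] at hk ⊢
    omega
  have hKpos : (0 : ℝ) < K := by exact_mod_cast hK
  have hfin : (K : ℝ) * Θ ≤ (K : ℝ) * ((2 * (1 - α) + 1 / (K : ℝ)) * F) := by
    have : (K : ℝ) * ((2 * (1 - α) + 1 / (K : ℝ)) * F) = (K : ℝ) * (2 * (1 - α) * F) + F := by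
      field_simp
    rw [this]
    linarith
  exact le_of_mul_le_mul_left hfin hKpos

end Vale.Agent.H37
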