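import Vale.Agent.H37.Cotype.PairStmt
import Vale.Agent.H37.Cotype.Tail
import Vale.Agent.H37.Cotype.CoreStmt

-- Frozen copy (only the import lines changed) of Vale/Agent/H99/P138/Core.lean, proved by helper99;
-- kept here so that the P138 hand-in has one self-contained import closure.

/-!
From the pair inequality to the weighted-cuts theorem.
-/

namespace Vale.Agent.H37

open Finset Matrix

/-- Jensen for a probability weight: the square of a mean is at most the mean of squares. -/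
theorem core_jensen {ι : Type} [Fintype ι] (c d : ι → ℝ) (hc : ∀ j, 0 ≤ c j)
    (hsum : ∑ j, c j = 1) : (∑ j, c j * d j) ^ 2 ≤ ∑ j, c j * d j ^ 2 := by
  have h1 : ∀ m : ℝ, ∑ j, c j * (d j - m) ^ 2
      = ∑ j, c j * d j ^ 2 - 2 * m * ∑ j, c j * d j + m ^ 2 * ∑ j, c j := by
    intro m
    have e : ∀ j, c j * (d j - m) ^ 2 = c j * d j ^ 2 - 2 * m * (c j * d j) + m ^ 2 * c j :=
      fun j => by ring
    simp only [e]
    rw [Finset.sum_add_distrib, Finset.sum_sub_distrib, ← Finset.mul_sum, ← Finset.mul_sum]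
  have h0 : 0 ≤ ∑ j, c j * (d j - ∑ j, c j * d j) ^ 2 :=
    Finset.sum_nonneg fun j _ => mul_nonneg (hc j) (sq_nonneg _)
  rw [h1, hsum] at h0
  nlinarith

/-- The parameter `t/(t+1)` raised to the power `11 (t+1)` is at most `1/4`. -/
theorem core_alpha_pow (t : ℕ) (ht : 1 ≤ t) :
    ((t : ℝ) / (t + 1)) ^ (11 * (t + 1)) ≤ 1 / 4 := by
  have ht0 : (0 : ℝ) < t := by exact_mod_cast ht
  have ht1 : (0 : ℝ) < (t : ℝ) + 1 := by linarith
  -- Bernoulli: (1 + 1/t)^(t+1) ≥ 2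
  have hb : 1 + ((t + 1 : ℕ) : ℝ) * (1 / (t : ℝ)) ≤ (1 + 1 / (t : ℝ)) ^ (t + 1) :=
    one_add_mul_le_pow (by
      have : (0 : ℝ) ≤ 1 / (t : ℝ) := by positivity
      linarith) (t + 1)
  have hb2 : (2 : ℝ) ≤ (1 + 1 / (t : ℝ)) ^ (t + 1) := by
    have : (1 : ℝ) ≤ ((t + 1 : ℕ) : ℝ) * (1 / (t : ℝ)) := by
      push_cast
      rw [mul_one_div, le_div_iff₀ ht0]
      linarith
    linarith
  have hinv : (t : ℝ) / (t + 1) = (1 + 1 / (t : ℝ))⁻¹ := by
    field_simp
  have h1 : ((t : ℝ) / (t + 1)) ^ (t + 1) ≤ 1 / 2 := by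
    rw [hinv, inv_pow]
    rw [inv_le_comm₀ (by positivity) (by norm_num)]
    simpa using hb2
  have h0 : (0 : ℝ) ≤ ((t : ℝ) / (t + 1)) ^ (t + 1) := by positivity
  calc ((t : ℝ) / (t + 1)) ^ (11 * (t + 1))
      = (((t : ℝ) / (t + 1)) ^ (t + 1)) ^ 11 := by rw [mul_comm, pow_mul]
    _ ≤ (1 / 2 : ℝ) ^ 11 := pow_le_pow_left₀ h0 h1 11
    _ ≤ 1 / 4 := by norm_num

/-- The tail factor is bounded by an absolute constant. -/
theorem core_tail_const (t : ℕ) (ht : 1 ≤ t) :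
    (1 + 2 / (t : ℝ)) ^ (22 * (t + 1) - t) ≤ Real.exp 88 := by
  have ht0 : (0 : ℝ) < t := by exact_mod_cast ht
  have h1 : 1 + 2 / (t : ℝ) ≤ Real.exp (2 / (t : ℝ)) := by
    have := Real.add_one_le_exp (2 / (t : ℝ))
    linarith
  have h0 : (0 : ℝ) ≤ 1 + 2 / (t : ℝ) := by positivity
  calc (1 + 2 / (t : ℝ)) ^ (22 * (t + 1) - t)
      ≤ (Real.exp (2 / (t : ℝ))) ^ (22 * (t + 1) - t) := pow_le_pow_left₀ h0 h1 _
    _ = Real.exp (((22 * (t + 1) - t : ℕ) : ℝ) * (2 / (t : ℝ))) := by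
        rw [← Real.exp_nat_mul]
    _ ≤ Real.exp 88 := by
        apply Real.exp_le_exp.2
        have hle : ((22 * (t + 1) - t : ℕ) : ℝ) ≤ 22 * ((t : ℝ) + 1) := by
          have : 22 * (t + 1) - t ≤ 22 * (t + 1) := Nat.sub_le _ _
          exact_mod_cast this
        have h2 : (0 : ℝ) ≤ 2 / (t : ℝ) := by positivity
        calc ((22 * (t + 1) - t : ℕ) : ℝ) * (2 / (t : ℝ))
            ≤ 22 * ((t : ℝ) + 1) * (2 / (t : ℝ)) := mul_le_mul_of_nonneg_right hle h2
          _ ≤ 88 := by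
              rw [mul_div_assoc', div_le_iff₀ ht0]
              have : (1 : ℝ) ≤ t := by exact_mod_cast ht
              nlinarith

/-- Pointwise comparison of a cut indicator with its thresholded smoothing. -/
theorem core_pointwise {V : Type} [Fintype V] [DecidableEq V] {π : V → ℝ} {A : Matrix V V ℝ}
    {α : ℝ} {G : Matrix V V ℝ} (hG : IsResolvent π A α G) (hα1 : α < 1)
    (f : V → ℝ) (hf : ∀ i, f i = 0 ∨ f i = 1) (i : V) :
    |f i - psi (smooth α G f i)| ≤ 4 * ∑ j, (1 - α) * G i j * |f i - f j| := by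
  have hf0 : ∀ i, 0 ≤ f i := fun i => by rcases hf i with h | h <;> simp [h]
  have hf1 : ∀ i, f i ≤ 1 := fun i => by rcases hf i with h | h <;> simp [h]
  have hs0 := smooth_nonneg hG hα1 hf0 i
  have hs1 := smooth_le_one hG hα1 hf1 i
  have hrow := smooth_row hG hα1 i
  rcases hf i with h | h
  · rw [h, zero_sub, abs_neg, abs_of_nonneg (psi_nonneg _)]
    have e : ∑ j, (1 - α) * G i j * |0 - f j| = smooth α G f i := by
      unfold smooth
      rw [Finset.mul_sum]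
      refine Finset.sum_congr rfl fun j _ => ?_
      rw [zero_sub, abs_neg, abs_of_nonneg (hf0 j)]
      ring
    rw [e]
    exact psi_le_four_mul hs0
  · rw [h, abs_of_nonneg (by linarith [psi_le_one (smooth α G f i)])]
    have e : ∑ j, (1 - α) * G i j * |1 - f j| = 1 - smooth α G f i := by
      have e1 : ∀ j, (1 - α) * G i j * |1 - f j|
          = (1 - α) * G i j - (1 - α) * (G i j * f j) := by
        intro j
        rw [abs_of_nonneg (by linarith [hf1 j])]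
        ring
      simp only [e1]
      rw [Finset.sum_sub_distrib, hrow, ← Finset.mul_sum]
      rfl
    rw [e]
    exact one_sub_psi_le hs1

/-- The Cesaro right-hand side in terms of step energies. -/
theorem core_rhs {V : Type} [Fintype V] [DecidableEq V] (π : V → ℝ) (A : Matrix V V ℝ)
    (D : V → V → ℝ) (t : ℕ) :
    ∑ i, ∑ j, π i * ((1 / (t : ℝ)) • ∑ s ∈ Finset.Icc 1 t, A ^ s) i j * D i j ^ 2
      = (1 / (t : ℝ)) * ∑ s ∈ Finset.Icc 1 t, stepEnergy π A D s := by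
  unfold stepEnergy
  have e : ∀ i j, π i * ((1 / (t : ℝ)) • ∑ s ∈ Finset.Icc 1 t, A ^ s) i j * D i j ^ 2
      = (1 / (t : ℝ)) * ∑ s ∈ Finset.Icc 1 t, π i * (A ^ s) i j * D i j ^ 2 := by
    intro i j
    rw [Matrix.smul_apply, Matrix.sum_apply, smul_eq_mul, Finset.mul_sum, Finset.mul_sum,
      Finset.sum_mul, Finset.mul_sum]
    refine Finset.sum_congr rfl fun s _ => by ring
  simp only [e, ← Finset.mul_sum]
  congr 1
  calc ∑ i, ∑ j, ∑ s ∈ Finset.Icc 1 t, π i * (A ^ s) i j * D i j ^ 2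
      = ∑ i, ∑ s ∈ Finset.Icc 1 t, ∑ j, π i * (A ^ s) i j * D i j ^ 2 :=
        Finset.sum_congr rfl fun i _ => Finset.sum_comm
    _ = ∑ s ∈ Finset.Icc 1 t, ∑ i, ∑ j, π i * (A ^ s) i j * D i j ^ 2 := Finset.sum_comm

/-- Expansion of a weighted square of a sum over cuts into a double sum over pairs of cuts. -/
theorem core_expand {V Ω : Type} [Fintype V] [Fintype Ω] (w : Ω → ℝ) (g : Ω → V → V → ℝ)
    (c : V → V → ℝ) :
    ∑ i, ∑ j, c i j * (∑ ω, w ω * g ω i j) ^ 2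
      = ∑ ω, ∑ ω', w ω * w ω' * ∑ i, ∑ j, c i j * (g ω i j * g ω' i j) := by
  have e1 : ∑ i, ∑ j, c i j * (∑ ω, w ω * g ω i j) ^ 2
      = ∑ i, ∑ j, ∑ ω, ∑ ω', c i j * (w ω * w ω' * (g ω i j * g ω' i j)) := by
    refine Finset.sum_congr rfl fun i _ => Finset.sum_congr rfl fun j _ => ?_
    rw [sq, Finset.sum_mul_sum, Finset.mul_sum]
    refine Finset.sum_congr rfl fun ω _ => ?_
    rw [Finset.mul_sum]
    refine Finset.sum_congr rfl fun ω' _ => by ring
  have e2 : ∑ ω, ∑ ω', w ω * w ω' * ∑ i, ∑ j, c i j * (g ω i j * g ω' i j)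
      = ∑ ω, ∑ ω', ∑ i, ∑ j, c i j * (w ω * w ω' * (g ω i j * g ω' i j)) := by
    refine Finset.sum_congr rfl fun ω _ => Finset.sum_congr rfl fun ω' _ => ?_
    rw [Finset.mul_sum]
    refine Finset.sum_congr rfl fun i _ => ?_
    rw [Finset.mul_sum]
    refine Finset.sum_congr rfl fun j _ => by ring
  rw [e1, e2]
  calc ∑ i, ∑ j, ∑ ω, ∑ ω', c i j * (w ω * w ω' * (g ω i j * g ω' i j))
      = ∑ i, ∑ ω, ∑ j, ∑ ω', c i j * (w ω * w ω' * (g ω i j * g ω' i j)) :=
        Finset.sum_congr rfl fun i _ => Finset.sum_comm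
    _ = ∑ ω, ∑ i, ∑ j, ∑ ω', c i j * (w ω * w ω' * (g ω i j * g ω' i j)) := Finset.sum_comm
    _ = ∑ ω, ∑ i, ∑ ω', ∑ j, c i j * (w ω * w ω' * (g ω i j * g ω' i j)) :=
        Finset.sum_congr rfl fun ω _ => Finset.sum_congr rfl fun i _ => Finset.sum_comm
    _ = ∑ ω, ∑ ω', ∑ i, ∑ j, c i j * (w ω * w ω' * (g ω i j * g ω' i j)) :=
        Finset.sum_congr rfl fun ω _ => Finset.sum_comm

theorem core_of_pair
    (hpair : ∀ (V : Type) [Fintype V] [DecidableEq V] (π : V → ℝ) (A : Matrix V V ℝ),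
      RevChain π A → ∀ (t : ℕ), 1 ≤ t → ∀ G : Matrix V V ℝ,
        IsResolvent π A ((t : ℝ) / (t + 1)) G → PairIneq π A t G) :
    ∃ K : ℝ, 0 < K ∧ CoreCuts K := by
  have hP0 : 0 < pairConst := pairConst_pos
  have hE0 : 0 < Real.exp 88 := Real.exp_pos 88
  refine ⟨(16 * (2 + 1 / 11) + pairConst) * (2 * Real.exp 88), by positivity, ?_⟩
  intro V _ _ π A h t ht Ω _ w hw u hu
  -- parameters
  have ht0 : (0 : ℝ) < t := by exact_mod_cast ht
  have ht1 : (0 : ℝ) < (t : ℝ) + 1 := by linarith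
  have hα0 : (0 : ℝ) ≤ (t : ℝ) / (t + 1) := by positivity
  have hα1 : (t : ℝ) / (t + 1) < 1 := by rw [div_lt_one ht1]; linarith
  have hlam : 1 - (t : ℝ) / (t + 1) = 1 / ((t : ℝ) + 1) := by field_simp; ring
  obtain ⟨G, hG⟩ := h.exists_resolvent hα0 hα1
  have hP : PairIneq π A t G := hpair V π A h t ht G hG
  -- the new points
  refine ⟨fun ω i => psi (smooth ((t : ℝ) / (t + 1)) G (u ω) i),
    fun ω i => ⟨psi_nonneg _, psi_le_one _⟩, ?_⟩
  -- the distance
  set D : V → V → ℝ := fun i j => ∑ ω, w ω * |u ω i - u ω j| with hD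
  have hD0 : ∀ a b, 0 ≤ D a b := fun a b =>
    Finset.sum_nonneg fun ω _ => mul_nonneg (hw ω) (abs_nonneg _)
  have htri : ∀ a b c, D a c ≤ D a b + D b c := by
    intro a b c
    simp only [hD]
    rw [← Finset.sum_add_distrib]
    refine Finset.sum_le_sum fun ω _ => ?_
    rw [← mul_add]
    exact mul_le_mul_of_nonneg_left (abs_sub_le _ _ _) (hw ω)
  have hdiag : ∀ a, D a a = 0 := by
    intro a
    simp [hD]
  have hF0 : ∀ m : ℕ, 0 ≤ ∑ s ∈ Finset.Icc 1 m, stepEnergy π A D s := fun m =>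
    Finset.sum_nonneg fun s _ => stepEnergy_nonneg h D s
  -- Part (I)
  have hI : ∑ i, π i * (∑ ω, w ω * |u ω i - psi (smooth ((t : ℝ) / (t + 1)) G (u ω) i)|) ^ 2
      ≤ 16 * ((2 * (1 - (t : ℝ) / (t + 1)) + 1 / ((11 * (t + 1) : ℕ) : ℝ))
          * ∑ s ∈ Finset.Icc 1 (2 * (11 * (t + 1))), stepEnergy π A D s) := by
    have hpt : ∀ i, (∑ ω, w ω * |u ω i - psi (smooth ((t : ℝ) / (t + 1)) G (u ω) i)|) ^ 2
        ≤ 16 * ∑ j, (1 - (t : ℝ) / (t + 1)) * G i j * D i j ^ 2 := by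
      intro i
      have h1 : ∑ ω, w ω * |u ω i - psi (smooth ((t : ℝ) / (t + 1)) G (u ω) i)|
          ≤ 4 * ∑ j, (1 - (t : ℝ) / (t + 1)) * G i j * D i j := by
        calc ∑ ω, w ω * |u ω i - psi (smooth ((t : ℝ) / (t + 1)) G (u ω) i)|
            ≤ ∑ ω, w ω * (4 * ∑ j, (1 - (t : ℝ) / (t + 1)) * G i j * |u ω i - u ω j|) :=
              Finset.sum_le_sum fun ω _ =>
                mul_le_mul_of_nonneg_left (core_pointwise hG hα1 (u ω) (hu ω) i) (hw ω)
          _ = 4 * ∑ j, (1 - (t : ℝ) / (t + 1)) * G i j * D i j := by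
              simp only [hD, Finset.mul_sum]
              rw [Finset.sum_comm]
              refine Finset.sum_congr rfl fun j _ => Finset.sum_congr rfl fun ω _ => by ring
      have h0 : 0 ≤ ∑ ω, w ω * |u ω i - psi (smooth ((t : ℝ) / (t + 1)) G (u ω) i)| :=
        Finset.sum_nonneg fun ω _ => mul_nonneg (hw ω) (abs_nonneg _)
      have hJ := core_jensen (fun j => (1 - (t : ℝ) / (t + 1)) * G i j) (fun j => D i j)
        (fun j => mul_nonneg (by linarith) (hG.nonneg i j)) (smooth_row hG hα1 i)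
      calc (∑ ω, w ω * |u ω i - psi (smooth ((t : ℝ) / (t + 1)) G (u ω) i)|) ^ 2
          ≤ (4 * ∑ j, (1 - (t : ℝ) / (t + 1)) * G i j * D i j) ^ 2 :=
            pow_le_pow_left₀ h0 h1 2
        _ = 16 * (∑ j, (1 - (t : ℝ) / (t + 1)) * G i j * D i j) ^ 2 := by ring
        _ ≤ 16 * ∑ j, (1 - (t : ℝ) / (t + 1)) * G i j * D i j ^ 2 := by linarith [hJ]
    have hres := resolvent_energy_le h hG hα0 hα1 D hD0 htri hdiag (11 * (t + 1))
      (by omega) (core_alpha_pow t ht)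
    calc ∑ i, π i * (∑ ω, w ω * |u ω i - psi (smooth ((t : ℝ) / (t + 1)) G (u ω) i)|) ^ 2
        ≤ ∑ i, π i * (16 * ∑ j, (1 - (t : ℝ) / (t + 1)) * G i j * D i j ^ 2) :=
          Finset.sum_le_sum fun i _ => mul_le_mul_of_nonneg_left (hpt i) (h.pi_nonneg i)
      _ = 16 * ∑ a, ∑ b, π a * ((1 - (t : ℝ) / (t + 1)) * G a b) * D a b ^ 2 := by
          rw [Finset.mul_sum]
          refine Finset.sum_congr rfl fun i _ => ?_
          rw [Finset.mul_sum, Finset.mul_sum, Finset.mul_sum]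
          refine Finset.sum_congr rfl fun j _ => by ring
      _ ≤ _ := mul_le_mul_of_nonneg_left hres (by norm_num)
  -- Part (II)
  have hII : ∑ i, ∑ j, π i * A i j *
        (∑ ω, w ω * |psi (smooth ((t : ℝ) / (t + 1)) G (u ω) i)
          - psi (smooth ((t : ℝ) / (t + 1)) G (u ω) j)|) ^ 2
      ≤ pairConst * (1 / ((t : ℝ) + 1)) ^ 2
          * ∑ s ∈ Finset.Icc 1 (22 * (t + 1)), stepEnergy π A D s := by
    rw [core_expand w (fun ω i j => |psi (smooth ((t : ℝ) / (t + 1)) G (u ω) i)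
          - psi (smooth ((t : ℝ) / (t + 1)) G (u ω) j)|) (fun i j => π i * A i j)]
    have hstep : ∀ s : ℕ, stepEnergy π A D s
        = ∑ ω, ∑ ω', w ω * w ω' * ∑ a, ∑ b, π a * (A ^ s) a b
            * (|u ω a - u ω b| * |u ω' a - u ω' b|) := by
      intro s
      unfold stepEnergy
      exact core_expand w (fun ω a b => |u ω a - u ω b|) (fun a b => π a * (A ^ s) a b)
    calc ∑ ω, ∑ ω', w ω * w ω' * ∑ i, ∑ j, π i * A i j *
          (|psi (smooth ((t : ℝ) / (t + 1)) G (u ω) i)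
              - psi (smooth ((t : ℝ) / (t + 1)) G (u ω) j)|
            * |psi (smooth ((t : ℝ) / (t + 1)) G (u ω') i)
              - psi (smooth ((t : ℝ) / (t + 1)) G (u ω') j)|)
        ≤ ∑ ω, ∑ ω', w ω * w ω' * (pairConst * (1 / ((t : ℝ) + 1)) ^ 2 *
            ∑ s ∈ Finset.Icc 1 (22 * (t + 1)), ∑ a, ∑ b,
              π a * (A ^ s) a b * (|u ω a - u ω b| * |u ω' a - u ω' b|)) := by
          refine Finset.sum_le_sum fun ω _ => Finset.sum_le_sum fun ω' _ => ?_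
          exact mul_le_mul_of_nonneg_left (hP (u ω) (u ω') (hu ω) (hu ω'))
            (mul_nonneg (hw ω) (hw ω'))
      _ = ∑ ω, ∑ ω', ∑ s ∈ Finset.Icc 1 (22 * (t + 1)), w ω * w ω' *
            (pairConst * (1 / ((t : ℝ) + 1)) ^ 2 * ∑ a, ∑ b,
              π a * (A ^ s) a b * (|u ω a - u ω b| * |u ω' a - u ω' b|)) := by
          refine Finset.sum_congr rfl fun ω _ => Finset.sum_congr rfl fun ω' _ => ?_
          rw [Finset.mul_sum, Finset.mul_sum]
      _ = ∑ ω, ∑ s ∈ Finset.Icc 1 (22 * (t + 1)), ∑ ω', w ω * w ω' *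
            (pairConst * (1 / ((t : ℝ) + 1)) ^ 2 * ∑ a, ∑ b,
              π a * (A ^ s) a b * (|u ω a - u ω b| * |u ω' a - u ω' b|)) :=
          Finset.sum_congr rfl fun ω _ => Finset.sum_comm
      _ = ∑ s ∈ Finset.Icc 1 (22 * (t + 1)), ∑ ω, ∑ ω', w ω * w ω' *
            (pairConst * (1 / ((t : ℝ) + 1)) ^ 2 * ∑ a, ∑ b,
              π a * (A ^ s) a b * (|u ω a - u ω b| * |u ω' a - u ω' b|)) := Finset.sum_comm
      _ = ∑ s ∈ Finset.Icc 1 (22 * (t + 1)),
            pairConst * (1 / ((t : ℝ) + 1)) ^ 2 * stepEnergy π A D s := by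
          refine Finset.sum_congr rfl fun s _ => ?_
          rw [hstep s, Finset.mul_sum]
          refine Finset.sum_congr rfl fun ω _ => ?_
          rw [Finset.mul_sum]
          refine Finset.sum_congr rfl fun ω' _ => by ring
      _ = pairConst * (1 / ((t : ℝ) + 1)) ^ 2
            * ∑ s ∈ Finset.Icc 1 (22 * (t + 1)), stepEnergy π A D s := by
          rw [Finset.mul_sum]
  -- Part (III)
  have hIII : ∑ s ∈ Finset.Icc 1 (22 * (t + 1)), stepEnergy π A D s
      ≤ 2 * Real.exp 88 * ∑ s ∈ Finset.Icc 1 t, stepEnergy π A D s := by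
    have h1 := tail_bound h D hD0 htri t ht (22 * (t + 1)) (by omega)
    have h2 := core_tail_const t ht
    have h3 : 2 * (1 + 2 / (t : ℝ)) ^ (22 * (t + 1) - t)
          * ∑ s ∈ Finset.Icc 1 t, stepEnergy π A D s
        ≤ 2 * Real.exp 88 * ∑ s ∈ Finset.Icc 1 t, stepEnergy π A D s :=
      mul_le_mul_of_nonneg_right (by linarith) (hF0 t)
    linarith
  -- assemble
  rw [core_rhs π A D t]
  have h2K : 2 * (11 * (t + 1)) = 22 * (t + 1) := by ring
  rw [h2K, hlam] at hI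
  have hKc : 1 / ((11 * (t + 1) : ℕ) : ℝ) = (1 / ((t : ℝ) + 1)) / 11 := by
    push_cast
    field_simp
  rw [hKc] at hI
  set lam : ℝ := 1 / ((t : ℝ) + 1) with hlamdef
  set FK : ℝ := ∑ s ∈ Finset.Icc 1 (22 * (t + 1)), stepEnergy π A D s with hFK
  set FT : ℝ := ∑ s ∈ Finset.Icc 1 t, stepEnergy π A D s with hFT
  have hFK0 : 0 ≤ FK := hF0 (22 * (t + 1))
  have hFT0 : 0 ≤ FT := hF0 t
  have hlam0 : 0 < lam := by positivity
  have hlamle : lam ≤ 1 / (t : ℝ) := by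
    rw [hlamdef]
    exact one_div_le_one_div_of_le ht0 (by linarith)
  have htlam : (t : ℝ) * lam ≤ 1 := by
    rw [hlamdef, mul_one_div, div_le_one ht1]
    linarith
  have s0 : (t : ℝ) * (pairConst * lam ^ 2 * FK) ≤ pairConst * lam * FK := by
    have e : (t : ℝ) * (pairConst * lam ^ 2 * FK) = ((t : ℝ) * lam) * (pairConst * lam * FK) := by
      ring
    rw [e]
    have hnn : 0 ≤ pairConst * lam * FK := by positivity
    nlinarith
  have s1 : 16 * ((2 * lam + lam / 11) * FK) + (t : ℝ) * (pairConst * lam ^ 2 * FK)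
      ≤ (16 * (2 + 1 / 11) + pairConst) * lam * FK := by
    have e : 16 * ((2 * lam + lam / 11) * FK) = 16 * (2 + 1 / 11) * lam * FK := by ring
    rw [e]
    linarith
  have s2 : (16 * (2 + 1 / 11) + pairConst) * lam * FK
      ≤ (16 * (2 + 1 / 11) + pairConst) * lam * (2 * Real.exp 88 * FT) :=
    mul_le_mul_of_nonneg_left hIII (by positivity)
  have s3 : (16 * (2 + 1 / 11) + pairConst) * lam * (2 * Real.exp 88 * FT)
      ≤ (16 * (2 + 1 / 11) + pairConst) * (1 / (t : ℝ)) * (2 * Real.exp 88 * FT) := by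
    apply mul_le_mul_of_nonneg_right _ (by positivity)
    exact mul_le_mul_of_nonneg_left hlamle (by positivity)
  have hII' : (t : ℝ) * ∑ i, ∑ j, π i * A i j *
        (∑ ω, w ω * |psi (smooth ((t : ℝ) / (t + 1)) G (u ω) i)
          - psi (smooth ((t : ℝ) / (t + 1)) G (u ω) j)|) ^ 2
      ≤ (t : ℝ) * (pairConst * lam ^ 2 * FK) :=
    mul_le_mul_of_nonneg_left hII ht0.le
  have e4 : (16 * (2 + 1 / 11) + pairConst) * (2 * Real.exp 88) * (1 / (t : ℝ) * FT)
      = (16 * (2 + 1 / 11) + pairConst) * (1 / (t : ℝ)) * (2 * Real.exp 88 * FT) := by ring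
  rw [e4]
  linarith

end Vale.Agent.H37
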