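import Mathlib

-- Frozen copy (only the import lines changed) of Vale/Agent/H35/P138/CutRep.lean, proved by helper35;
-- kept here so that the P138 hand-in has one self-contained import closure.

/-!
Cut decomposition of a real function on `Fin n`: it is a nonnegative combination of
indicators of a chain of sets (up to a constant), isometrically.
Proof: sort the values, take the gaps between consecutive sorted values as weights of
the upper cuts (layer cake), and telescope.
-/

namespace Vale.Agent.H37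

open Finset

/-- the sorted values, indexed by natural numbers (zero outside the range) -/
noncomputable def cutG {n : ℕ} (f : Fin n → ℝ) (r : ℕ) : ℝ :=
  if h : r < n then f (Tuple.sort f ⟨r, h⟩) else 0

/-- position of an index in the sorted order -/
noncomputable def cutPos {n : ℕ} (f : Fin n → ℝ) (i : Fin n) : ℕ :=
  ((Tuple.sort f).symm i : ℕ)

theorem cutPos_lt {n : ℕ} (f : Fin n → ℝ) (i : Fin n) : cutPos f i < n :=
  ((Tuple.sort f).symm i).2

theorem cutG_pos {n : ℕ} (f : Fin n → ℝ) (i : Fin n) : cutG f (cutPos f i) = f i := by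
  unfold cutG
  rw [dif_pos (cutPos_lt f i)]
  have h : (⟨cutPos f i, cutPos_lt f i⟩ : Fin n) = (Tuple.sort f).symm i := Fin.ext rfl
  rw [h, Equiv.apply_symm_apply]

theorem cutG_mono {n : ℕ} (f : Fin n → ℝ) {r s : ℕ} (hrs : r ≤ s) (hs : s < n) :
    cutG f r ≤ cutG f s := by
  unfold cutG
  rw [dif_pos hs, dif_pos (lt_of_le_of_lt hrs hs)]
  exact Tuple.monotone_sort f (by simpa using hrs)

/-- the upper cut at sorted position `r` -/
noncomputable def cutSet {n : ℕ} (f : Fin n → ℝ) (r : ℕ) : Finset (Fin n) :=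
  univ.filter (fun i => r < cutPos f i)

/-- the gap between consecutive sorted values -/
noncomputable def cutGap {n : ℕ} (f : Fin n → ℝ) (r : ℕ) : ℝ :=
  cutG f (r + 1) - cutG f r

theorem cutGap_nonneg {n : ℕ} (f : Fin n → ℝ) {r : ℕ} (hr : r ∈ range (n - 1)) :
    0 ≤ cutGap f r := by
  have h : r + 1 < n := by
    have := mem_range.mp hr
    omega
  unfold cutGap
  linarith [cutG_mono f (Nat.le_succ r) h]

/-- the weights -/
noncomputable def cutC {n : ℕ} (f : Fin n → ℝ) (S : Finset (Fin n)) : ℝ :=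
  ∑ r ∈ range (n - 1), if cutSet f r = S then cutGap f r else 0

theorem cutC_nonneg {n : ℕ} (f : Fin n → ℝ) (S : Finset (Fin n)) : 0 ≤ cutC f S := by
  unfold cutC
  refine sum_nonneg fun r hr => ?_
  split_ifs
  · exact cutGap_nonneg f hr
  · exact le_rfl

theorem cutC_sum {n : ℕ} (f : Fin n → ℝ) (F : Finset (Fin n) → ℝ) :
    ∑ S, cutC f S * F S = ∑ r ∈ range (n - 1), cutGap f r * F (cutSet f r) := by
  unfold cutC
  simp_rw [sum_mul]
  rw [sum_comm]
  refine sum_congr rfl fun r _ => ?_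
  simp [ite_mul]

theorem cut_telescope {n : ℕ} (f : Fin n → ℝ) (i : Fin n) :
    ∑ r ∈ range (n - 1), cutGap f r * (if r < cutPos f i then (1 : ℝ) else 0)
      = f i - cutG f 0 := by
  have hlt := cutPos_lt f i
  have h1 : ∑ r ∈ range (n - 1), cutGap f r * (if r < cutPos f i then (1 : ℝ) else 0)
      = ∑ r ∈ range (cutPos f i), cutGap f r := by
    simp_rw [mul_ite, mul_one, mul_zero]
    rw [← sum_filter]
    refine sum_congr ?_ fun _ _ => rfl
    ext r
    simp only [mem_filter, mem_range]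
    omega
  rw [h1]
  unfold cutGap
  rw [sum_range_sub (cutG f) (cutPos f i), cutG_pos]

theorem cut_ind {n : ℕ} (f : Fin n → ℝ) (r : ℕ) (i : Fin n) :
    (if i ∈ cutSet f r then (1 : ℝ) else 0) = if r < cutPos f i then (1 : ℝ) else 0 := by
  unfold cutSet
  simp

theorem cut_diff {n : ℕ} (f : Fin n → ℝ) (i j : Fin n) :
    f i - f j = ∑ S, cutC f S *
      ((if i ∈ S then (1 : ℝ) else 0) - (if j ∈ S then (1 : ℝ) else 0)) := by
  rw [cutC_sum f (fun S => (if i ∈ S then (1 : ℝ) else 0) - (if j ∈ S then (1 : ℝ) else 0))]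
  simp_rw [cut_ind, mul_sub]
  rw [sum_sub_distrib, cut_telescope, cut_telescope]
  ring

theorem cut_abs_of_le {n : ℕ} (f : Fin n → ℝ) (i j : Fin n) (hij : cutPos f j ≤ cutPos f i) :
    ∑ S, cutC f S * |(if i ∈ S then (1 : ℝ) else 0) - (if j ∈ S then (1 : ℝ) else 0)|
      ≤ |f i - f j| := by
  rw [cutC_sum f (fun S => |(if i ∈ S then (1 : ℝ) else 0) - (if j ∈ S then (1 : ℝ) else 0)|)]
  simp_rw [cut_ind]
  have h1 : ∀ r ∈ range (n - 1),
      cutGap f r * |(if r < cutPos f i then (1 : ℝ) else 0) - (if r < cutPos f j then (1 : ℝ) else 0)|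
      = cutGap f r * (if r < cutPos f i then (1 : ℝ) else 0)
        - cutGap f r * (if r < cutPos f j then (1 : ℝ) else 0) := by
    intro r _
    rw [← mul_sub]
    congr 1
    apply abs_of_nonneg
    by_cases h : r < cutPos f j
    · have h2 : r < cutPos f i := lt_of_lt_of_le h hij
      simp [h, h2]
    · by_cases h2 : r < cutPos f i <;> simp [h, h2]
  rw [sum_congr rfl h1, sum_sub_distrib, cut_telescope, cut_telescope]
  have : f i - cutG f 0 - (f j - cutG f 0) = f i - f j := by ring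
  rw [this]
  exact le_abs_self _

theorem cut_abs {n : ℕ} (f : Fin n → ℝ) (i j : Fin n) :
    ∑ S, cutC f S * |(if i ∈ S then (1 : ℝ) else 0) - (if j ∈ S then (1 : ℝ) else 0)|
      ≤ |f i - f j| := by
  rcases le_total (cutPos f j) (cutPos f i) with h | h
  · exact cut_abs_of_le f i j h
  · have := cut_abs_of_le f j i h
    rw [abs_sub_comm (f i) (f j)]
    refine le_trans (le_of_eq ?_) this
    refine sum_congr rfl fun S _ => ?_
    rw [abs_sub_comm]

theorem cutC_le {n : ℕ} (f : Fin n → ℝ) (S : Finset (Fin n)) :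
    cutC f S ≤ ∑ i, ∑ j, |f i - f j| := by
  have hnn : 0 ≤ ∑ i, ∑ j, |f i - f j| :=
    sum_nonneg fun i _ => sum_nonneg fun j _ => abs_nonneg _
  have h1 : cutC f S ≤ ∑ r ∈ range (n - 1), cutGap f r := by
    unfold cutC
    refine sum_le_sum fun r hr => ?_
    split_ifs
    · exact le_rfl
    · exact cutGap_nonneg f hr
  have h2 : ∑ r ∈ range (n - 1), cutGap f r = cutG f (n - 1) - cutG f 0 := by
    unfold cutGap
    exact sum_range_sub (cutG f) (n - 1)
  rcases Nat.eq_zero_or_pos n with hn | hn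
  · subst hn
    have : cutC f S = 0 := by
      unfold cutC
      simp
    rw [this]
    exact hnn
  · have ha : n - 1 < n := by omega
    have e1 : cutG f (n - 1) = f (Tuple.sort f ⟨n - 1, ha⟩) := by
      unfold cutG
      rw [dif_pos ha]
    have e0 : cutG f 0 = f (Tuple.sort f ⟨0, hn⟩) := by
      unfold cutG
      rw [dif_pos hn]
    have h3 : |f (Tuple.sort f ⟨n - 1, ha⟩) - f (Tuple.sort f ⟨0, hn⟩)|
        ≤ ∑ i, ∑ j, |f i - f j| := by
      have h4 : |f (Tuple.sort f ⟨n - 1, ha⟩) - f (Tuple.sort f ⟨0, hn⟩)|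
          ≤ ∑ j, |f (Tuple.sort f ⟨n - 1, ha⟩) - f j| :=
        single_le_sum (f := fun j => |f (Tuple.sort f ⟨n - 1, ha⟩) - f j|)
          (fun j _ => abs_nonneg _) (mem_univ _)
      have h5 : ∑ j, |f (Tuple.sort f ⟨n - 1, ha⟩) - f j| ≤ ∑ i, ∑ j, |f i - f j| :=
        single_le_sum (f := fun i => ∑ j, |f i - f j|)
          (fun i _ => sum_nonneg fun j _ => abs_nonneg _) (mem_univ _)
      exact le_trans h4 h5
    calc cutC f S ≤ cutG f (n - 1) - cutG f 0 := by rw [← h2]; exact h1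
      _ = f (Tuple.sort f ⟨n - 1, ha⟩) - f (Tuple.sort f ⟨0, hn⟩) := by rw [e1, e0]
      _ ≤ |f (Tuple.sort f ⟨n - 1, ha⟩) - f (Tuple.sort f ⟨0, hn⟩)| := le_abs_self _
      _ ≤ _ := h3

theorem cut_rep {n : ℕ} (f : Fin n → ℝ) :
    ∃ c : Finset (Fin n) → ℝ, (∀ S, 0 ≤ c S) ∧
      (∀ i j, f i - f j
        = ∑ S, c S * ((if i ∈ S then (1 : ℝ) else 0) - (if j ∈ S then (1 : ℝ) else 0))) ∧
      (∀ i j, ∑ S, c S * |(if i ∈ S then (1 : ℝ) else 0) - (if j ∈ S then (1 : ℝ) else 0)|
        ≤ |f i - f j|) ∧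
      (∀ S, c S ≤ ∑ i, ∑ j, |f i - f j|) :=
  ⟨cutC f, cutC_nonneg f, cut_diff f, cut_abs f, cutC_le f⟩

end Vale.Agent.H37
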