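import Vale.Agent.H37.Cotype.CoreStmt
import Vale.Agent.H37.Cotype.CutRep

-- Frozen copy (only the import lines changed) of Vale/Agent/H53/P138/L1.lean, proved by helper53;
-- kept here so that the P138 hand-in has one self-contained import closure.

/-!
From weighted cuts to the sequence space `ℓ_1` (TASK D of the P138 plan).

`l1_of_core_of` takes the cut decomposition as an explicit hypothesis `CutRepStmt`;
`l1_of_core` discharges it with `Vale.Agent.H37.cut_rep`.
-/

namespace Vale.Agent.H53.P138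

open Finset Matrix Vale.Agent.H37

/-- The statement of the cut decomposition lemma (`Vale.Agent.H37.cut_rep`). -/
def CutRepStmt : Prop :=
  ∀ (n : ℕ) (f : Fin n → ℝ),
    ∃ c : Finset (Fin n) → ℝ, (∀ S, 0 ≤ c S) ∧
      (∀ i j, f i - f j
        = ∑ S, c S * ((if i ∈ S then (1 : ℝ) else 0) - (if j ∈ S then (1 : ℝ) else 0))) ∧
      (∀ i j, ∑ S, c S * |(if i ∈ S then (1 : ℝ) else 0) - (if j ∈ S then (1 : ℝ) else 0)|
        ≤ |f i - f j|) ∧
      (∀ S, c S ≤ ∑ i, ∑ j, |f i - f j|)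

lemma norm_eq_tsum_abs (z : lp (fun _ : ℕ => ℝ) 1) : ‖z‖ = ∑' k, |z k| := by
  have h := lp.norm_eq_tsum_rpow (p := 1) (by simp) z
  simpa using h

lemma summable_abs (z : lp (fun _ : ℕ => ℝ) 1) : Summable (fun k => |z k|) := by
  have h := (lp.memℓp z).summable (by simp)
  simpa using h

/-- Metric Markov cotype two of real `ℓ_1`, from the weighted-cuts theorem and the cut
decomposition. -/
theorem l1_of_core_of (hcut : CutRepStmt) {K : ℝ} (hK : 0 < K) (hcore : CoreCuts K) :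
    ∃ C : ℝ, 0 < C ∧ ∀ (n t : ℕ), 1 ≤ t →
      ∀ (π : Fin n → ℝ) (A : Matrix (Fin n) (Fin n) ℝ),
        (∀ i, 0 ≤ π i) → (∑ i, π i = 1) →
        (∀ i j, 0 ≤ A i j) → (∀ i, ∑ j, A i j = 1) →
        (∀ i j, π i * A i j = π j * A j i) →
        ∀ x : Fin n → lp (fun _ : ℕ => ℝ) 1,
          ∃ y : Fin n → lp (fun _ : ℕ => ℝ) 1,
            ∑ i, π i * ‖x i - y i‖ ^ 2
              + (t : ℝ) * ∑ i, ∑ j, π i * A i j * ‖y i - y j‖ ^ 2
              ≤ C ^ 2 * ∑ i, ∑ j, π i * ((1 / (t : ℝ)) • ∑ s ∈ Finset.Icc 1 t, A ^ s) i j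
                  * ‖x i - x j‖ ^ 2 := by
  classical
  refine ⟨Real.sqrt K, Real.sqrt_pos.mpr hK, ?_⟩
  intro n t ht π A hπ0 hπ1 hA0 hA1 hrev x
  rw [Real.sq_sqrt hK.le]
  have hch : RevChain π A := ⟨hπ0, hπ1, hA0, hA1, hrev⟩
  -- cut decompositions, one per coordinate
  choose c hc0 hcdiff hcabs hcle using fun k : ℕ => hcut n (fun i => x i k)
  set u : Finset (Fin n) → Fin n → ℝ := fun S i => if i ∈ S then 1 else 0 with hu
  have hsum_x : ∀ i j, Summable (fun k => |x i k - x j k|) := by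
    intro i j
    have h := summable_abs (x i - x j)
    simpa using h
  have hnorm_x : ∀ i j, ‖x i - x j‖ = ∑' k, |x i k - x j k| := by
    intro i j
    rw [norm_eq_tsum_abs]
    simp
  have hB : Summable (fun k => ∑ i, ∑ j, |x i k - x j k|) :=
    summable_sum fun i _ => summable_sum fun j _ => hsum_x i j
  have hcs : ∀ S, Summable (fun k => c k S) := fun S =>
    Summable.of_nonneg_of_le (fun k => hc0 k S) (fun k => hcle k S) hB
  set W : Finset (Fin n) → ℝ := fun S => ∑' k, c k S with hW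
  have hW0 : ∀ S, 0 ≤ W S := fun S => tsum_nonneg fun k => hc0 k S
  have hu01 : ∀ S i, u S i = 0 ∨ u S i = 1 := by
    intro S i
    by_cases h : i ∈ S <;> simp [hu, h]
  obtain ⟨v, hv01, hv⟩ := hcore (Fin n) π A hch t ht (Finset (Fin n)) W hW0 u hu01
  -- a general identity: sums against `W` are series of sums against `c k`
  have hWsum : ∀ g : Finset (Fin n) → ℝ,
      ∑ S, W S * g S = ∑' k, ∑ S, c k S * g S := by
    intro g
    rw [Summable.tsum_finsetSum (fun S _ => (hcs S).mul_right (g S))]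
    refine Finset.sum_congr rfl fun S _ => ?_
    rw [hW, tsum_mul_right]
  have hsumS : ∀ g : Finset (Fin n) → ℝ, Summable (fun k => ∑ S, c k S * g S) := fun g =>
    summable_sum fun S _ => (hcs S).mul_right (g S)
  -- the correction term
  set d : Fin n → ℕ → ℝ := fun i k => ∑ S, c k S * (v S i - u S i) with hd
  have hd_abs : ∀ i k, |d i k| ≤ ∑ S, c k S * |u S i - v S i| := by
    intro i k
    calc |d i k| ≤ ∑ S, |c k S * (v S i - u S i)| := Finset.abs_sum_le_sum_abs _ _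
      _ = ∑ S, c k S * |u S i - v S i| := by
        refine Finset.sum_congr rfl fun S _ => ?_
        rw [abs_mul, abs_of_nonneg (hc0 k S), abs_sub_comm]
  have hd_sum : ∀ i, Summable (fun k => |d i k|) := fun i =>
    Summable.of_nonneg_of_le (fun k => abs_nonneg _) (hd_abs i) (hsumS _)
  have hd_mem : ∀ i, Memℓp (d i) 1 := fun i => memℓp_gen (by simpa using hd_sum i)
  let dl : Fin n → lp (fun _ : ℕ => ℝ) 1 := fun i => ⟨d i, hd_mem i⟩
  have hdl : ∀ i k, dl i k = d i k := fun i k => rfl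
  refine ⟨fun i => x i + dl i, ?_⟩
  -- (a)
  have ha : ∀ i, ‖x i - (x i + dl i)‖ ≤ ∑ S, W S * |u S i - v S i| := by
    intro i
    rw [hWsum, norm_eq_tsum_abs]
    have hs : Summable (fun k => |(x i - (x i + dl i)) k|) := summable_abs _
    refine hs.tsum_le_tsum (fun k => ?_) (hsumS _)
    have : (x i - (x i + dl i)) k = - d i k := by
      simp [hdl]
    rw [this, abs_neg]
    exact hd_abs i k
  -- (b)
  have hb : ∀ i j, ‖(x i + dl i) - (x j + dl j)‖ ≤ ∑ S, W S * |v S i - v S j| := by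
    intro i j
    rw [hWsum, norm_eq_tsum_abs]
    have hs : Summable (fun k => |((x i + dl i) - (x j + dl j)) k|) := summable_abs _
    refine hs.tsum_le_tsum (fun k => ?_) (hsumS _)
    have e : ((x i + dl i) - (x j + dl j)) k = ∑ S, c k S * (v S i - v S j) := by
      have h1 : ((x i + dl i) - (x j + dl j)) k = (x i k - x j k) + (d i k - d j k) := by
        simp [hdl]
        ring
      rw [h1, hcdiff k i j, hd, ← Finset.sum_sub_distrib, ← Finset.sum_add_distrib]
      refine Finset.sum_congr rfl fun S _ => ?_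
      simp only [hu]
      ring
    rw [e]
    calc |∑ S, c k S * (v S i - v S j)| ≤ ∑ S, |c k S * (v S i - v S j)| :=
          Finset.abs_sum_le_sum_abs _ _
      _ = ∑ S, c k S * |v S i - v S j| := by
        refine Finset.sum_congr rfl fun S _ => ?_
        rw [abs_mul, abs_of_nonneg (hc0 k S)]
  -- (c)
  have hc : ∀ i j, ∑ S, W S * |u S i - u S j| ≤ ‖x i - x j‖ := by
    intro i j
    rw [hWsum, hnorm_x]
    exact (hsumS _).tsum_le_tsum (fun k => hcabs k i j) (hsum_x i j)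
  -- nonnegativity of the Cesaro kernel
  have hker : ∀ i j, 0 ≤ ((1 / (t : ℝ)) • ∑ s ∈ Finset.Icc 1 t, A ^ s) i j := by
    intro i j
    rw [Matrix.smul_apply, Matrix.sum_apply, smul_eq_mul]
    exact mul_nonneg (by positivity) (Finset.sum_nonneg fun s _ => hch.pow_nonneg s i j)
  have hSW0 : ∀ g : Finset (Fin n) → ℝ, 0 ≤ ∑ S, W S * |g S| := fun g =>
    Finset.sum_nonneg fun S _ => mul_nonneg (hW0 S) (abs_nonneg _)
  calc ∑ i, π i * ‖x i - (x i + dl i)‖ ^ 2
        + (t : ℝ) * ∑ i, ∑ j, π i * A i j * ‖(x i + dl i) - (x j + dl j)‖ ^ 2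
      ≤ ∑ i, π i * (∑ S, W S * |u S i - v S i|) ^ 2
        + (t : ℝ) * ∑ i, ∑ j, π i * A i j * (∑ S, W S * |v S i - v S j|) ^ 2 := by
        refine add_le_add ?_ (mul_le_mul_of_nonneg_left ?_ (by positivity))
        · refine Finset.sum_le_sum fun i _ => mul_le_mul_of_nonneg_left ?_ (hπ0 i)
          exact pow_le_pow_left₀ (norm_nonneg _) (ha i) 2
        · refine Finset.sum_le_sum fun i _ => Finset.sum_le_sum fun j _ =>
            mul_le_mul_of_nonneg_left ?_ (mul_nonneg (hπ0 i) (hA0 i j))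
          exact pow_le_pow_left₀ (norm_nonneg _) (hb i j) 2
    _ ≤ K * ∑ i, ∑ j, π i * ((1 / (t : ℝ)) • ∑ s ∈ Finset.Icc 1 t, A ^ s) i j
          * (∑ S, W S * |u S i - u S j|) ^ 2 := hv
    _ ≤ K * ∑ i, ∑ j, π i * ((1 / (t : ℝ)) • ∑ s ∈ Finset.Icc 1 t, A ^ s) i j
          * ‖x i - x j‖ ^ 2 := by
        refine mul_le_mul_of_nonneg_left ?_ hK.le
        refine Finset.sum_le_sum fun i _ => Finset.sum_le_sum fun j _ =>
          mul_le_mul_of_nonneg_left ?_ (mul_nonneg (hπ0 i) (hker i j))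
        exact pow_le_pow_left₀ (hSW0 _) (hc i j) 2

/-- Metric Markov cotype two of real `ℓ_1`, from the weighted-cuts theorem. -/
theorem l1_of_core {K : ℝ} (hK : 0 < K) (hcore : CoreCuts K) :
    ∃ C : ℝ, 0 < C ∧ ∀ (n t : ℕ), 1 ≤ t →
      ∀ (π : Fin n → ℝ) (A : Matrix (Fin n) (Fin n) ℝ),
        (∀ i, 0 ≤ π i) → (∑ i, π i = 1) →
        (∀ i j, 0 ≤ A i j) → (∀ i, ∑ j, A i j = 1) →
        (∀ i j, π i * A i j = π j * A j i) →
        ∀ x : Fin n → lp (fun _ : ℕ => ℝ) 1,
          ∃ y : Fin n → lp (fun _ : ℕ => ℝ) 1,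
            ∑ i, π i * ‖x i - y i‖ ^ 2
              + (t : ℝ) * ∑ i, ∑ j, π i * A i j * ‖y i - y j‖ ^ 2
              ≤ C ^ 2 * ∑ i, ∑ j, π i * ((1 / (t : ℝ)) • ∑ s ∈ Finset.Icc 1 t, A ^ s) i j
                  * ‖x i - x j‖ ^ 2 :=
  l1_of_core_of (fun _ f => cut_rep f) hK hcore

end Vale.Agent.H53.P138
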