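import Vale.Agent.H37.Cotype.Pair4
import Vale.Agent.H37.Cotype.Core
import Vale.Agent.H37.Cotype.L1
import Mathlib.Analysis.Complex.ExponentialBounds

/-!
# Explicit constants for the P138 theorem

`core_of_pair` and `l1_of_core_of` hide their constants behind an existential quantifier.
This file repeats the two proofs with the constants exposed (the proof bodies are copied
verbatim from `Core.lean` and `L1.lean`) and bounds the resulting constant by a numeral.
-/

namespace Vale.Agent.H37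

open Finset Matrix

/-- The constant of the weighted-cuts theorem. -/
noncomputable def coreConst : ℝ := (16 * (2 + 1 / 11) + pairConst) * (2 * Real.exp 88)

theorem coreConst_pos : 0 < coreConst := by
  have hP0 : 0 < pairConst := pairConst_pos
  have hE0 : 0 < Real.exp 88 := Real.exp_pos 88
  unfold coreConst
  positivity

/-- The weighted-cuts theorem with its constant exposed. -/
theorem core_explicit : CoreCuts coreConst := by
  have hP0 : 0 < pairConst := pairConst_pos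
  have hE0 : 0 < Real.exp 88 := Real.exp_pos 88
  unfold coreConst
  intro V _ _ π A h t ht Ω _ w hw u hu
  -- parameters
  have ht0 : (0 : ℝ) < t := by exact_mod_cast ht
  have ht1 : (0 : ℝ) < (t : ℝ) + 1 := by linarith
  have hα0 : (0 : ℝ) ≤ (t : ℝ) / (t + 1) := by positivity
  have hα1 : (t : ℝ) / (t + 1) < 1 := by rw [div_lt_one ht1]; linarith
  have hlam : 1 - (t : ℝ) / (t + 1) = 1 / ((t : ℝ) + 1) := by field_simp; ring
  obtain ⟨G, hG⟩ := h.exists_resolvent hα0 hα1
  have hP : PairIneq π A t G := pair_all V π A h t ht G hG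
  -- the new points
  refine ⟨fun ω i => psi (smooth ((t : ℝ) / (t + 1)) G (u ω) i),
    fun ω i => ⟨psi_nonneg _, psi_le_one _⟩, ?_⟩
  -- the distance
  set D : V → V → ℝ := fun i j => ∑ ω, w ω * |u ω i - u ω j| with hD
  have hD0 : ∀ a b, 0 ≤ D a b := fun a b =>
    Finset.sum_nonneg fun ω _ => mul_nonneg (hw ω) (abs_nonneg _)
  have htri : ∀ a b c, D a c ≤ D a b + D b c := by
    intro a b c
    simp only [hD]
    rw [← Finset.sum_add_distrib]
    refine Finset.sum_le_sum fun ω _ => ?_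
    rw [← mul_add]
    exact mul_le_mul_of_nonneg_left (abs_sub_le _ _ _) (hw ω)
  have hdiag : ∀ a, D a a = 0 := by
    intro a
    simp [hD]
  have hF0 : ∀ m : ℕ, 0 ≤ ∑ s ∈ Finset.Icc 1 m, stepEnergy π A D s := fun m =>
    Finset.sum_nonneg fun s _ => stepEnergy_nonneg h D s
  -- Part (I)
  have hI : ∑ i, π i * (∑ ω, w ω * |u ω i - psi (smooth ((t : ℝ) / (t + 1)) G (u ω) i)|) ^ 2
      ≤ 16 * ((2 * (1 - (t : ℝ) / (t + 1)) + 1 / ((11 * (t + 1) : ℕ) : ℝ))
          * ∑ s ∈ Finset.Icc 1 (2 * (11 * (t + 1))), stepEnergy π A D s) := by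
    have hpt : ∀ i, (∑ ω, w ω * |u ω i - psi (smooth ((t : ℝ) / (t + 1)) G (u ω) i)|) ^ 2
        ≤ 16 * ∑ j, (1 - (t : ℝ) / (t + 1)) * G i j * D i j ^ 2 := by
      intro i
      have h1 : ∑ ω, w ω * |u ω i - psi (smooth ((t : ℝ) / (t + 1)) G (u ω) i)|
          ≤ 4 * ∑ j, (1 - (t : ℝ) / (t + 1)) * G i j * D i j := by
        calc ∑ ω, w ω * |u ω i - psi (smooth ((t : ℝ) / (t + 1)) G (u ω) i)|
            ≤ ∑ ω, w ω * (4 * ∑ j, (1 - (t : ℝ) / (t + 1)) * G i j * |u ω i - u ω j|) :=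
              Finset.sum_le_sum fun ω _ =>
                mul_le_mul_of_nonneg_left (core_pointwise hG hα1 (u ω) (hu ω) i) (hw ω)
          _ = 4 * ∑ j, (1 - (t : ℝ) / (t + 1)) * G i j * D i j := by
              simp only [hD, Finset.mul_sum]
              rw [Finset.sum_comm]
              refine Finset.sum_congr rfl fun j _ => Finset.sum_congr rfl fun ω _ => by ring
      have h0 : 0 ≤ ∑ ω, w ω * |u ω i - psi (smooth ((t : ℝ) / (t + 1)) G (u ω) i)| :=
        Finset.sum_nonneg fun ω _ => mul_nonneg (hw ω) (abs_nonneg _)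
      have hJ := core_jensen (fun j => (1 - (t : ℝ) / (t + 1)) * G i j) (fun j => D i j)
        (fun j => mul_nonneg (by linarith) (hG.nonneg i j)) (smooth_row hG hα1 i)
      calc (∑ ω, w ω * |u ω i - psi (smooth ((t : ℝ) / (t + 1)) G (u ω) i)|) ^ 2
          ≤ (4 * ∑ j, (1 - (t : ℝ) / (t + 1)) * G i j * D i j) ^ 2 :=
            pow_le_pow_left₀ h0 h1 2
        _ = 16 * (∑ j, (1 - (t : ℝ) / (t + 1)) * G i j * D i j) ^ 2 := by ring
        _ ≤ 16 * ∑ j, (1 - (t : ℝ) / (t + 1)) * G i j * D i j ^ 2 := by linarith [hJ]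
    have hres := resolvent_energy_le h hG hα0 hα1 D hD0 htri hdiag (11 * (t + 1))
      (by omega) (core_alpha_pow t ht)
    calc ∑ i, π i * (∑ ω, w ω * |u ω i - psi (smooth ((t : ℝ) / (t + 1)) G (u ω) i)|) ^ 2
        ≤ ∑ i, π i * (16 * ∑ j, (1 - (t : ℝ) / (t + 1)) * G i j * D i j ^ 2) :=
          Finset.sum_le_sum fun i _ => mul_le_mul_of_nonneg_left (hpt i) (h.pi_nonneg i)
      _ = 16 * ∑ a, ∑ b, π a * ((1 - (t : ℝ) / (t + 1)) * G a b) * D a b ^ 2 := by
          rw [Finset.mul_sum]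
          refine Finset.sum_congr rfl fun i _ => ?_
          rw [Finset.mul_sum, Finset.mul_sum, Finset.mul_sum]
          refine Finset.sum_congr rfl fun j _ => by ring
      _ ≤ _ := mul_le_mul_of_nonneg_left hres (by norm_num)
  -- Part (II)
  have hII : ∑ i, ∑ j, π i * A i j *
        (∑ ω, w ω * |psi (smooth ((t : ℝ) / (t + 1)) G (u ω) i)
          - psi (smooth ((t : ℝ) / (t + 1)) G (u ω) j)|) ^ 2
      ≤ pairConst * (1 / ((t : ℝ) + 1)) ^ 2
          * ∑ s ∈ Finset.Icc 1 (22 * (t + 1)), stepEnergy π A D s := by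
    rw [core_expand w (fun ω i j => |psi (smooth ((t : ℝ) / (t + 1)) G (u ω) i)
          - psi (smooth ((t : ℝ) / (t + 1)) G (u ω) j)|) (fun i j => π i * A i j)]
    have hstep : ∀ s : ℕ, stepEnergy π A D s
        = ∑ ω, ∑ ω', w ω * w ω' * ∑ a, ∑ b, π a * (A ^ s) a b
            * (|u ω a - u ω b| * |u ω' a - u ω' b|) := by
      intro s
      unfold stepEnergy
      exact core_expand w (fun ω a b => |u ω a - u ω b|) (fun a b => π a * (A ^ s) a b)
    calc ∑ ω, ∑ ω', w ω * w ω' * ∑ i, ∑ j, π i * A i j *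
          (|psi (smooth ((t : ℝ) / (t + 1)) G (u ω) i)
              - psi (smooth ((t : ℝ) / (t + 1)) G (u ω) j)|
            * |psi (smooth ((t : ℝ) / (t + 1)) G (u ω') i)
              - psi (smooth ((t : ℝ) / (t + 1)) G (u ω') j)|)
        ≤ ∑ ω, ∑ ω', w ω * w ω' * (pairConst * (1 / ((t : ℝ) + 1)) ^ 2 *
            ∑ s ∈ Finset.Icc 1 (22 * (t + 1)), ∑ a, ∑ b,
              π a * (A ^ s) a b * (|u ω a - u ω b| * |u ω' a - u ω' b|)) := by
          refine Finset.sum_le_sum fun ω _ => Finset.sum_le_sum fun ω' _ => ?_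
          exact mul_le_mul_of_nonneg_left (hP (u ω) (u ω') (hu ω) (hu ω'))
            (mul_nonneg (hw ω) (hw ω'))
      _ = ∑ ω, ∑ ω', ∑ s ∈ Finset.Icc 1 (22 * (t + 1)), w ω * w ω' *
            (pairConst * (1 / ((t : ℝ) + 1)) ^ 2 * ∑ a, ∑ b,
              π a * (A ^ s) a b * (|u ω a - u ω b| * |u ω' a - u ω' b|)) := by
          refine Finset.sum_congr rfl fun ω _ => Finset.sum_congr rfl fun ω' _ => ?_
          rw [Finset.mul_sum, Finset.mul_sum]
      _ = ∑ ω, ∑ s ∈ Finset.Icc 1 (22 * (t + 1)), ∑ ω', w ω * w ω' *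
            (pairConst * (1 / ((t : ℝ) + 1)) ^ 2 * ∑ a, ∑ b,
              π a * (A ^ s) a b * (|u ω a - u ω b| * |u ω' a - u ω' b|)) :=
          Finset.sum_congr rfl fun ω _ => Finset.sum_comm
      _ = ∑ s ∈ Finset.Icc 1 (22 * (t + 1)), ∑ ω, ∑ ω', w ω * w ω' *
            (pairConst * (1 / ((t : ℝ) + 1)) ^ 2 * ∑ a, ∑ b,
              π a * (A ^ s) a b * (|u ω a - u ω b| * |u ω' a - u ω' b|)) := Finset.sum_comm
      _ = ∑ s ∈ Finset.Icc 1 (22 * (t + 1)),
            pairConst * (1 / ((t : ℝ) + 1)) ^ 2 * stepEnergy π A D s := by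
          refine Finset.sum_congr rfl fun s _ => ?_
          rw [hstep s, Finset.mul_sum]
          refine Finset.sum_congr rfl fun ω _ => ?_
          rw [Finset.mul_sum]
          refine Finset.sum_congr rfl fun ω' _ => by ring
      _ = pairConst * (1 / ((t : ℝ) + 1)) ^ 2
            * ∑ s ∈ Finset.Icc 1 (22 * (t + 1)), stepEnergy π A D s := by
          rw [Finset.mul_sum]
  -- Part (III)
  have hIII : ∑ s ∈ Finset.Icc 1 (22 * (t + 1)), stepEnergy π A D s
      ≤ 2 * Real.exp 88 * ∑ s ∈ Finset.Icc 1 t, stepEnergy π A D s := by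
    have h1 := tail_bound h D hD0 htri t ht (22 * (t + 1)) (by omega)
    have h2 := core_tail_const t ht
    have h3 : 2 * (1 + 2 / (t : ℝ)) ^ (22 * (t + 1) - t)
          * ∑ s ∈ Finset.Icc 1 t, stepEnergy π A D s
        ≤ 2 * Real.exp 88 * ∑ s ∈ Finset.Icc 1 t, stepEnergy π A D s :=
      mul_le_mul_of_nonneg_right (by linarith) (hF0 t)
    linarith
  -- assemble
  rw [core_rhs π A D t]
  have h2K : 2 * (11 * (t + 1)) = 22 * (t + 1) := by ring
  rw [h2K, hlam] at hI
  have hKc : 1 / ((11 * (t + 1) : ℕ) : ℝ) = (1 / ((t : ℝ) + 1)) / 11 := by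
    push_cast
    field_simp
  rw [hKc] at hI
  set lam : ℝ := 1 / ((t : ℝ) + 1) with hlamdef
  set FK : ℝ := ∑ s ∈ Finset.Icc 1 (22 * (t + 1)), stepEnergy π A D s with hFK
  set FT : ℝ := ∑ s ∈ Finset.Icc 1 t, stepEnergy π A D s with hFT
  have hFK0 : 0 ≤ FK := hF0 (22 * (t + 1))
  have hFT0 : 0 ≤ FT := hF0 t
  have hlam0 : 0 < lam := by positivity
  have hlamle : lam ≤ 1 / (t : ℝ) := by
    rw [hlamdef]
    exact one_div_le_one_div_of_le ht0 (by linarith)
  have htlam : (t : ℝ) * lam ≤ 1 := by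
    rw [hlamdef, mul_one_div, div_le_one ht1]
    linarith
  have s0 : (t : ℝ) * (pairConst * lam ^ 2 * FK) ≤ pairConst * lam * FK := by
    have e : (t : ℝ) * (pairConst * lam ^ 2 * FK) = ((t : ℝ) * lam) * (pairConst * lam * FK) := by
      ring
    rw [e]
    have hnn : 0 ≤ pairConst * lam * FK := by positivity
    nlinarith
  have s1 : 16 * ((2 * lam + lam / 11) * FK) + (t : ℝ) * (pairConst * lam ^ 2 * FK)
      ≤ (16 * (2 + 1 / 11) + pairConst) * lam * FK := by
    have e : 16 * ((2 * lam + lam / 11) * FK) = 16 * (2 + 1 / 11) * lam * FK := by ring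
    rw [e]
    linarith
  have s2 : (16 * (2 + 1 / 11) + pairConst) * lam * FK
      ≤ (16 * (2 + 1 / 11) + pairConst) * lam * (2 * Real.exp 88 * FT) :=
    mul_le_mul_of_nonneg_left hIII (by positivity)
  have s3 : (16 * (2 + 1 / 11) + pairConst) * lam * (2 * Real.exp 88 * FT)
      ≤ (16 * (2 + 1 / 11) + pairConst) * (1 / (t : ℝ)) * (2 * Real.exp 88 * FT) := by
    apply mul_le_mul_of_nonneg_right _ (by positivity)
    exact mul_le_mul_of_nonneg_left hlamle (by positivity)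
  have hII' : (t : ℝ) * ∑ i, ∑ j, π i * A i j *
        (∑ ω, w ω * |psi (smooth ((t : ℝ) / (t + 1)) G (u ω) i)
          - psi (smooth ((t : ℝ) / (t + 1)) G (u ω) j)|) ^ 2
      ≤ (t : ℝ) * (pairConst * lam ^ 2 * FK) :=
    mul_le_mul_of_nonneg_left hII ht0.le
  have e4 : (16 * (2 + 1 / 11) + pairConst) * (2 * Real.exp 88) * (1 / (t : ℝ) * FT)
      = (16 * (2 + 1 / 11) + pairConst) * (1 / (t : ℝ)) * (2 * Real.exp 88 * FT) := by ring
  rw [e4]
  linarith

theorem exp44_le : Real.exp 44 ≤ 14 * 10 ^ 18 := by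
  have h1 : Real.exp 44 = Real.exp 1 ^ 44 := by
    rw [← Real.exp_nat_mul]
    norm_num
  have h2 : Real.exp 1 ≤ 2.72 := le_of_lt (lt_trans Real.exp_one_lt_d9 (by norm_num))
  have h3 : Real.exp 1 ^ 44 ≤ (2.72 : ℝ) ^ 44 :=
    pow_le_pow_left₀ (Real.exp_pos 1).le h2 44
  rw [h1]
  refine h3.trans ?_
  norm_num

theorem exp88_le : Real.exp 88 ≤ 18 * 10 ^ 37 := by
  have h1 : Real.exp 88 = Real.exp 1 ^ 88 := by
    rw [← Real.exp_nat_mul]
    norm_num
  have h2 : Real.exp 1 ≤ 2.72 := le_of_lt (lt_trans Real.exp_one_lt_d9 (by norm_num))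
  have h3 : Real.exp 1 ^ 88 ≤ (2.72 : ℝ) ^ 88 :=
    pow_le_pow_left₀ (Real.exp_pos 1).le h2 88
  rw [h1]
  refine h3.trans ?_
  norm_num

/-- The constant of the weighted-cuts theorem is at most `10 ^ 68`. -/
theorem coreConst_le : coreConst ≤ ((10 : ℝ) ^ 34) ^ 2 := by
  have h44 := exp44_le
  have h88 := exp88_le
  have hE44 : 0 < Real.exp 44 := Real.exp_pos 44
  have hE88 : 0 < Real.exp 88 := Real.exp_pos 88
  have hp : pairConst ≤ 8 * 10 ^ 27 := by
    unfold pairConst
    nlinarith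
  have hp0 : 0 < pairConst := pairConst_pos
  unfold coreConst
  calc (16 * (2 + 1 / 11) + pairConst) * (2 * Real.exp 88)
      ≤ (16 * (2 + 1 / 11) + 8 * 10 ^ 27) * (2 * (18 * 10 ^ 37)) := by
        apply mul_le_mul _ _ (by positivity) (by positivity)
        · linarith
        · linarith
    _ ≤ ((10 : ℝ) ^ 34) ^ 2 := by norm_num

end Vale.Agent.H37

namespace Vale.Agent.H53.P138

open Finset Matrix Vale.Agent.H37

/-- Metric Markov cotype two of real `ℓ_1` with the constant of the weighted-cuts theorem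
exposed: the bound holds with `K` in place of `C ^ 2`. -/
theorem l1_explicit {K : ℝ} (hK : 0 < K) (hcore : CoreCuts K) :
    ∀ (n t : ℕ), 1 ≤ t →
      ∀ (π : Fin n → ℝ) (A : Matrix (Fin n) (Fin n) ℝ),
        (∀ i, 0 ≤ π i) → (∑ i, π i = 1) →
        (∀ i j, 0 ≤ A i j) → (∀ i, ∑ j, A i j = 1) →
        (∀ i j, π i * A i j = π j * A j i) →
        ∀ x : Fin n → lp (fun _ : ℕ => ℝ) 1,
          ∃ y : Fin n → lp (fun _ : ℕ => ℝ) 1,
            ∑ i, π i * ‖x i - y i‖ ^ 2
              + (t : ℝ) * ∑ i, ∑ j, π i * A i j * ‖y i - y j‖ ^ 2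
              ≤ K * ∑ i, ∑ j, π i * ((1 / (t : ℝ)) • ∑ s ∈ Finset.Icc 1 t, A ^ s) i j
                  * ‖x i - x j‖ ^ 2 := by
  classical
  have hcut : CutRepStmt := fun _ f => cut_rep f
  intro n t ht π A hπ0 hπ1 hA0 hA1 hrev x
  have hch : RevChain π A := ⟨hπ0, hπ1, hA0, hA1, hrev⟩
  -- cut decompositions, one per coordinate
  choose c hc0 hcdiff hcabs hcle using fun k : ℕ => hcut n (fun i => x i k)
  set u : Finset (Fin n) → Fin n → ℝ := fun S i => if i ∈ S then 1 else 0 with hu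
  have hsum_x : ∀ i j, Summable (fun k => |x i k - x j k|) := by
    intro i j
    have h := summable_abs (x i - x j)
    simpa using h
  have hnorm_x : ∀ i j, ‖x i - x j‖ = ∑' k, |x i k - x j k| := by
    intro i j
    rw [norm_eq_tsum_abs]
    simp
  have hB : Summable (fun k => ∑ i, ∑ j, |x i k - x j k|) :=
    summable_sum fun i _ => summable_sum fun j _ => hsum_x i j
  have hcs : ∀ S, Summable (fun k => c k S) := fun S =>
    Summable.of_nonneg_of_le (fun k => hc0 k S) (fun k => hcle k S) hB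
  set W : Finset (Fin n) → ℝ := fun S => ∑' k, c k S with hW
  have hW0 : ∀ S, 0 ≤ W S := fun S => tsum_nonneg fun k => hc0 k S
  have hu01 : ∀ S i, u S i = 0 ∨ u S i = 1 := by
    intro S i
    by_cases h : i ∈ S <;> simp [hu, h]
  obtain ⟨v, hv01, hv⟩ := hcore (Fin n) π A hch t ht (Finset (Fin n)) W hW0 u hu01
  -- a general identity: sums against `W` are series of sums against `c k`
  have hWsum : ∀ g : Finset (Fin n) → ℝ,
      ∑ S, W S * g S = ∑' k, ∑ S, c k S * g S := by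
    intro g
    rw [Summable.tsum_finsetSum (fun S _ => (hcs S).mul_right (g S))]
    refine Finset.sum_congr rfl fun S _ => ?_
    rw [hW, tsum_mul_right]
  have hsumS : ∀ g : Finset (Fin n) → ℝ, Summable (fun k => ∑ S, c k S * g S) := fun g =>
    summable_sum fun S _ => (hcs S).mul_right (g S)
  -- the correction term
  set d : Fin n → ℕ → ℝ := fun i k => ∑ S, c k S * (v S i - u S i) with hd
  have hd_abs : ∀ i k, |d i k| ≤ ∑ S, c k S * |u S i - v S i| := by
    intro i k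
    calc |d i k| ≤ ∑ S, |c k S * (v S i - u S i)| := Finset.abs_sum_le_sum_abs _ _
      _ = ∑ S, c k S * |u S i - v S i| := by
        refine Finset.sum_congr rfl fun S _ => ?_
        rw [abs_mul, abs_of_nonneg (hc0 k S), abs_sub_comm]
  have hd_sum : ∀ i, Summable (fun k => |d i k|) := fun i =>
    Summable.of_nonneg_of_le (fun k => abs_nonneg _) (hd_abs i) (hsumS _)
  have hd_mem : ∀ i, Memℓp (d i) 1 := fun i => memℓp_gen (by simpa using hd_sum i)
  let dl : Fin n → lp (fun _ : ℕ => ℝ) 1 := fun i => ⟨d i, hd_mem i⟩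
  have hdl : ∀ i k, dl i k = d i k := fun i k => rfl
  refine ⟨fun i => x i + dl i, ?_⟩
  -- (a)
  have ha : ∀ i, ‖x i - (x i + dl i)‖ ≤ ∑ S, W S * |u S i - v S i| := by
    intro i
    rw [hWsum, norm_eq_tsum_abs]
    have hs : Summable (fun k => |(x i - (x i + dl i)) k|) := summable_abs _
    refine hs.tsum_le_tsum (fun k => ?_) (hsumS _)
    have : (x i - (x i + dl i)) k = - d i k := by
      simp [hdl]
    rw [this, abs_neg]
    exact hd_abs i k
  -- (b)
  have hb : ∀ i j, ‖(x i + dl i) - (x j + dl j)‖ ≤ ∑ S, W S * |v S i - v S j| := by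
    intro i j
    rw [hWsum, norm_eq_tsum_abs]
    have hs : Summable (fun k => |((x i + dl i) - (x j + dl j)) k|) := summable_abs _
    refine hs.tsum_le_tsum (fun k => ?_) (hsumS _)
    have e : ((x i + dl i) - (x j + dl j)) k = ∑ S, c k S * (v S i - v S j) := by
      have h1 : ((x i + dl i) - (x j + dl j)) k = (x i k - x j k) + (d i k - d j k) := by
        simp [hdl]
        ring
      rw [h1, hcdiff k i j, hd, ← Finset.sum_sub_distrib, ← Finset.sum_add_distrib]
      refine Finset.sum_congr rfl fun S _ => ?_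
      simp only [hu]
      ring
    rw [e]
    calc |∑ S, c k S * (v S i - v S j)| ≤ ∑ S, |c k S * (v S i - v S j)| :=
          Finset.abs_sum_le_sum_abs _ _
      _ = ∑ S, c k S * |v S i - v S j| := by
        refine Finset.sum_congr rfl fun S _ => ?_
        rw [abs_mul, abs_of_nonneg (hc0 k S)]
  -- (c)
  have hc : ∀ i j, ∑ S, W S * |u S i - u S j| ≤ ‖x i - x j‖ := by
    intro i j
    rw [hWsum, hnorm_x]
    exact (hsumS _).tsum_le_tsum (fun k => hcabs k i j) (hsum_x i j)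
  -- nonnegativity of the Cesaro kernel
  have hker : ∀ i j, 0 ≤ ((1 / (t : ℝ)) • ∑ s ∈ Finset.Icc 1 t, A ^ s) i j := by
    intro i j
    rw [Matrix.smul_apply, Matrix.sum_apply, smul_eq_mul]
    exact mul_nonneg (by positivity) (Finset.sum_nonneg fun s _ => hch.pow_nonneg s i j)
  have hSW0 : ∀ g : Finset (Fin n) → ℝ, 0 ≤ ∑ S, W S * |g S| := fun g =>
    Finset.sum_nonneg fun S _ => mul_nonneg (hW0 S) (abs_nonneg _)
  calc ∑ i, π i * ‖x i - (x i + dl i)‖ ^ 2
        + (t : ℝ) * ∑ i, ∑ j, π i * A i j * ‖(x i + dl i) - (x j + dl j)‖ ^ 2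
      ≤ ∑ i, π i * (∑ S, W S * |u S i - v S i|) ^ 2
        + (t : ℝ) * ∑ i, ∑ j, π i * A i j * (∑ S, W S * |v S i - v S j|) ^ 2 := by
        refine add_le_add ?_ (mul_le_mul_of_nonneg_left ?_ (by positivity))
        · refine Finset.sum_le_sum fun i _ => mul_le_mul_of_nonneg_left ?_ (hπ0 i)
          exact pow_le_pow_left₀ (norm_nonneg _) (ha i) 2
        · refine Finset.sum_le_sum fun i _ => Finset.sum_le_sum fun j _ =>
            mul_le_mul_of_nonneg_left ?_ (mul_nonneg (hπ0 i) (hA0 i j))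
          exact pow_le_pow_left₀ (norm_nonneg _) (hb i j) 2
    _ ≤ K * ∑ i, ∑ j, π i * ((1 / (t : ℝ)) • ∑ s ∈ Finset.Icc 1 t, A ^ s) i j
          * (∑ S, W S * |u S i - u S j|) ^ 2 := hv
    _ ≤ K * ∑ i, ∑ j, π i * ((1 / (t : ℝ)) • ∑ s ∈ Finset.Icc 1 t, A ^ s) i j
          * ‖x i - x j‖ ^ 2 := by
        refine mul_le_mul_of_nonneg_left ?_ hK.le
        refine Finset.sum_le_sum fun i _ => Finset.sum_le_sum fun j _ =>
          mul_le_mul_of_nonneg_left ?_ (mul_nonneg (hπ0 i) (hker i j))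
        exact pow_le_pow_left₀ (hSW0 _) (hc i j) 2

/-- Metric Markov cotype two of real `ℓ_1` with the explicit constant `10 ^ 34`. -/
theorem l1_numeral :
    ∀ (n t : ℕ), 1 ≤ t →
      ∀ (π : Fin n → ℝ) (A : Matrix (Fin n) (Fin n) ℝ),
        (∀ i, 0 ≤ π i) → (∑ i, π i = 1) →
        (∀ i j, 0 ≤ A i j) → (∀ i, ∑ j, A i j = 1) →
        (∀ i j, π i * A i j = π j * A j i) →
        ∀ x : Fin n → lp (fun _ : ℕ => ℝ) 1,
          ∃ y : Fin n → lp (fun _ : ℕ => ℝ) 1,
            ∑ i, π i * ‖x i - y i‖ ^ 2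
              + (t : ℝ) * ∑ i, ∑ j, π i * A i j * ‖y i - y j‖ ^ 2
              ≤ ((10 : ℝ) ^ 34) ^ 2
                * ∑ i, ∑ j, π i * ((1 / (t : ℝ)) • ∑ s ∈ Finset.Icc 1 t, A ^ s) i j
                  * ‖x i - x j‖ ^ 2 := by
  intro n t ht π A hπ0 hπ1 hA0 hA1 hrev x
  obtain ⟨y, hy⟩ := l1_explicit coreConst_pos core_explicit n t ht π A hπ0 hπ1 hA0 hA1 hrev x
  refine ⟨y, hy.trans ?_⟩
  have hch : RevChain π A := ⟨hπ0, hπ1, hA0, hA1, hrev⟩
  have hker : ∀ i j, 0 ≤ ((1 / (t : ℝ)) • ∑ s ∈ Finset.Icc 1 t, A ^ s) i j := by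
    intro i j
    rw [Matrix.smul_apply, Matrix.sum_apply, smul_eq_mul]
    exact mul_nonneg (by positivity) (Finset.sum_nonneg fun s _ => hch.pow_nonneg s i j)
  refine mul_le_mul_of_nonneg_right coreConst_le ?_
  exact Finset.sum_nonneg fun i _ => Finset.sum_nonneg fun j _ =>
    mul_nonneg (mul_nonneg (hπ0 i) (hker i j)) (by positivity)

end Vale.Agent.H53.P138
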