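import Vale.Agent.H37.Cotype.Chain

-- Frozen copy (only the import lines changed) of Vale/Agent/H79/P138/PathCS.lean, proved by helper79;
-- kept here so that the P138 hand-in has one self-contained import closure.

/-!
First and second moments of an additive edge functional along paths of a nonnegative matrix,
with the entrywise Cauchy-Schwarz inequality between them.
-/

namespace Vale.Agent.H37

open Finset Matrix

variable {V : Type} [Fintype V] [DecidableEq V]

/-- First moment kernel: `pathM1 A Φ s = ∑_{l<s} A^l Φ A^(s-1-l)`. -/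
noncomputable def pathM1 (A Φ : Matrix V V ℝ) : ℕ → Matrix V V ℝ
  | 0 => 0
  | s + 1 => pathM1 A Φ s * A + A ^ s * Φ

/-- Second moment kernel of the additive functional. -/
noncomputable def pathM2 (A Φ Φ2 : Matrix V V ℝ) : ℕ → Matrix V V ℝ
  | 0 => 0
  | s + 1 => pathM2 A Φ Φ2 s * A + 2 • (pathM1 A Φ s * Φ) + A ^ s * Φ2

variable {A Φ Φ2 : Matrix V V ℝ} {g : V → V → ℝ}

theorem pathM1_zero (A Φ : Matrix V V ℝ) : pathM1 A Φ 0 = 0 := rfl

theorem pathM1_succ (A Φ : Matrix V V ℝ) (s : ℕ) :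
    pathM1 A Φ (s + 1) = pathM1 A Φ s * A + A ^ s * Φ := rfl

theorem pathM2_zero (A Φ Φ2 : Matrix V V ℝ) : pathM2 A Φ Φ2 0 = 0 := rfl

theorem pathM2_succ (A Φ Φ2 : Matrix V V ℝ) (s : ℕ) :
    pathM2 A Φ Φ2 (s + 1) = pathM2 A Φ Φ2 s * A + 2 • (pathM1 A Φ s * Φ) + A ^ s * Φ2 := rfl

theorem pathM2_succ_apply (A Φ Φ2 : Matrix V V ℝ) (s : ℕ) (a b : V) :
    pathM2 A Φ Φ2 (s + 1) a b = ∑ c, pathM2 A Φ Φ2 s a c * A c b
      + 2 * ∑ c, pathM1 A Φ s a c * Φ c b + ∑ c, (A ^ s) a c * Φ2 c b := by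
  rw [pathM2_succ, Matrix.add_apply, Matrix.add_apply, Matrix.smul_apply, Matrix.mul_apply,
    Matrix.mul_apply, Matrix.mul_apply, nsmul_eq_mul]
  push_cast
  rfl

theorem pathM1_eq (A Φ : Matrix V V ℝ) (s : ℕ) :
    pathM1 A Φ s = ∑ l ∈ Finset.range s, A ^ l * Φ * A ^ (s - 1 - l) := by
  induction s with
  | zero => simp [pathM1_zero]
  | succ s ih =>
    rw [pathM1_succ, Finset.sum_range_succ, ih, Finset.sum_mul]
    congr 1
    · apply Finset.sum_congr rfl
      intro l hl
      rw [Finset.mem_range] at hl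
      have h1 : s + 1 - 1 - l = (s - 1 - l) + 1 := by omega
      rw [h1, pow_succ, Matrix.mul_assoc]
    · have h1 : s + 1 - 1 - s = 0 := by omega
      rw [h1, pow_zero, Matrix.mul_one]

theorem matpow_nonneg (hA : ∀ i j, 0 ≤ A i j) (s : ℕ) (i j : V) : 0 ≤ (A ^ s) i j := by
  induction s generalizing i j with
  | zero =>
    simp only [pow_zero, Matrix.one_apply]
    split_ifs <;> norm_num
  | succ s ih =>
    rw [pow_succ, Matrix.mul_apply]
    exact Finset.sum_nonneg fun k _ => mul_nonneg (ih i k) (hA k j)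

theorem pathM1_nonneg (hA : ∀ i j, 0 ≤ A i j) (hΦ : ∀ i j, 0 ≤ Φ i j) (s : ℕ) (a b : V) :
    0 ≤ pathM1 A Φ s a b := by
  induction s generalizing a b with
  | zero => simp [pathM1_zero]
  | succ s ih =>
    rw [pathM1_succ, Matrix.add_apply, Matrix.mul_apply, Matrix.mul_apply]
    exact add_nonneg (Finset.sum_nonneg fun k _ => mul_nonneg (ih a k) (hA k b))
      (Finset.sum_nonneg fun k _ => mul_nonneg (matpow_nonneg hA s a k) (hΦ k b))

theorem pathM2_nonneg (hA : ∀ i j, 0 ≤ A i j) (hΦ : ∀ i j, 0 ≤ Φ i j) (hΦ2 : ∀ i j, 0 ≤ Φ2 i j)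
    (s : ℕ) (a b : V) : 0 ≤ pathM2 A Φ Φ2 s a b := by
  induction s generalizing a b with
  | zero => simp [pathM2_zero]
  | succ s ih =>
    rw [pathM2_succ, Matrix.add_apply, Matrix.add_apply, Matrix.smul_apply, Matrix.mul_apply,
      Matrix.mul_apply, Matrix.mul_apply]
    refine add_nonneg (add_nonneg ?_ ?_) ?_
    · exact Finset.sum_nonneg fun k _ => mul_nonneg (ih a k) (hA k b)
    · exact smul_nonneg (by norm_num)
        (Finset.sum_nonneg fun k _ => mul_nonneg (pathM1_nonneg hA hΦ s a k) (hΦ k b))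
    · exact Finset.sum_nonneg fun k _ => mul_nonneg (matpow_nonneg hA s a k) (hΦ2 k b)

/-- Entrywise Cauchy-Schwarz on path space. -/
theorem pathM1_sq_le (hA : ∀ i j, 0 ≤ A i j) (hg : ∀ i j, 0 ≤ g i j)
    (hΦ : ∀ i j, Φ i j = A i j * g i j) (hΦ2 : ∀ i j, Φ2 i j = A i j * g i j ^ 2)
    (s : ℕ) (a b : V) :
    (pathM1 A Φ s a b) ^ 2 ≤ (A ^ s) a b * pathM2 A Φ Φ2 s a b := by
  have hΦ0 : ∀ i j, 0 ≤ Φ i j := fun i j => by rw [hΦ]; exact mul_nonneg (hA i j) (hg i j)
  have hΦ20 : ∀ i j, 0 ≤ Φ2 i j := fun i j => by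
    rw [hΦ2]; exact mul_nonneg (hA i j) (sq_nonneg _)
  induction s generalizing b with
  | zero => simp [pathM1_zero, pathM2_zero]
  | succ s ih =>
    have e1 : pathM1 A Φ (s + 1) a b
        = ∑ c, A c b * (pathM1 A Φ s a c + (A ^ s) a c * g c b) := by
      rw [pathM1_succ, Matrix.add_apply, Matrix.mul_apply, Matrix.mul_apply,
        ← Finset.sum_add_distrib]
      apply Finset.sum_congr rfl
      intro c _
      rw [hΦ]
      ring
    have e0 : (A ^ (s + 1)) a b = ∑ c, A c b * (A ^ s) a c := by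
      rw [pow_succ, Matrix.mul_apply]
      apply Finset.sum_congr rfl
      intro c _
      ring
    have e2 : pathM2 A Φ Φ2 (s + 1) a b
        = ∑ c, A c b * (pathM2 A Φ Φ2 s a c + 2 * pathM1 A Φ s a c * g c b
            + (A ^ s) a c * g c b ^ 2) := by
      rw [pathM2_succ, Matrix.add_apply, Matrix.add_apply, Matrix.smul_apply, Matrix.mul_apply,
        Matrix.mul_apply, Matrix.mul_apply, nsmul_eq_mul, Finset.mul_sum,
        ← Finset.sum_add_distrib, ← Finset.sum_add_distrib]
      apply Finset.sum_congr rfl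
      intro c _
      rw [hΦ, hΦ2]
      push_cast
      ring
    rw [e1, e0, e2]
    apply Finset.sum_sq_le_sum_mul_sum_of_sq_le_mul
    · intro c _
      exact mul_nonneg (hA c b) (matpow_nonneg hA s a c)
    · intro c _
      refine mul_nonneg (hA c b) (add_nonneg (add_nonneg (pathM2_nonneg hA hΦ0 hΦ20 s a c) ?_) ?_)
      · exact mul_nonneg (mul_nonneg (by norm_num) (pathM1_nonneg hA hΦ0 s a c)) (hg c b)
      · exact mul_nonneg (matpow_nonneg hA s a c) (sq_nonneg _)
    · intro c _
      have h1 := ih c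
      have h2 := hA c b
      have h3 : 0 ≤ A c b ^ 2 := sq_nonneg _
      have key : (pathM1 A Φ s a c + (A ^ s) a c * g c b) ^ 2
          ≤ (A ^ s) a c * (pathM2 A Φ Φ2 s a c + 2 * pathM1 A Φ s a c * g c b
            + (A ^ s) a c * g c b ^ 2) := by
        nlinarith [h1]
      calc (A c b * (pathM1 A Φ s a c + (A ^ s) a c * g c b)) ^ 2
          = A c b ^ 2 * (pathM1 A Φ s a c + (A ^ s) a c * g c b) ^ 2 := by ring
        _ ≤ A c b ^ 2 * ((A ^ s) a c * (pathM2 A Φ Φ2 s a c + 2 * pathM1 A Φ s a c * g c b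
            + (A ^ s) a c * g c b ^ 2)) := mul_le_mul_of_nonneg_left key h3
        _ = _ := by ring

/-- The same in arithmetic-geometric form. -/
theorem pathM1_amgm (hA : ∀ i j, 0 ≤ A i j) (hg : ∀ i j, 0 ≤ g i j)
    (hΦ : ∀ i j, Φ i j = A i j * g i j) (hΦ2 : ∀ i j, Φ2 i j = A i j * g i j ^ 2)
    (s : ℕ) (a b : V) {β : ℝ} (hβ : 0 < β) :
    pathM1 A Φ s a b ≤ β / 2 * (A ^ s) a b + 1 / (2 * β) * pathM2 A Φ Φ2 s a b := by
  have hΦ0 : ∀ i j, 0 ≤ Φ i j := fun i j => by rw [hΦ]; exact mul_nonneg (hA i j) (hg i j)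
  have hΦ20 : ∀ i j, 0 ≤ Φ2 i j := fun i j => by
    rw [hΦ2]; exact mul_nonneg (hA i j) (sq_nonneg _)
  have hx := pathM1_nonneg hA hΦ0 s a b
  have hy := matpow_nonneg hA s a b
  have hz := pathM2_nonneg hA hΦ0 hΦ20 s a b (Φ2 := Φ2)
  have hsq := pathM1_sq_le hA hg hΦ hΦ2 s a b
  set x := pathM1 A Φ s a b
  set y := (A ^ s) a b
  set z := pathM2 A Φ Φ2 s a b
  have hrhs : β / 2 * y + 1 / (2 * β) * z = (β * y + z / β) / 2 := by
    field_simp
  rw [hrhs]
  have hw : 0 ≤ β * y + z / β := add_nonneg (mul_nonneg hβ.le hy) (div_nonneg hz hβ.le)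
  have h4 : (2 * x) ^ 2 ≤ (β * y + z / β) ^ 2 := by
    have h5 : (β * y + z / β) ^ 2 = (β * y - z / β) ^ 2 + 4 * (y * z) := by
      field_simp
      ring
    rw [h5]
    nlinarith [sq_nonneg (β * y - z / β)]
  have h6 : 2 * x ≤ β * y + z / β := by
    by_contra hcon
    push Not at hcon
    nlinarith
  linarith

theorem pathM1_weighted {π : V → ℝ} (h : RevChain π A) (s : ℕ) (ψ : V → ℝ) :
    ∑ a, ∑ c, π a * pathM1 A Φ s a c * ψ c
      = ∑ i, ∑ j, π i * Φ i j * ∑ k ∈ Finset.range s, ∑ l, (A ^ k) j l * ψ l := by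
  induction s generalizing ψ with
  | zero => simp [pathM1_zero]
  | succ s ih =>
    have e1 : ∑ a, ∑ c, π a * pathM1 A Φ (s + 1) a c * ψ c
        = ∑ a, ∑ c, π a * pathM1 A Φ s a c * (∑ l, A c l * ψ l)
          + ∑ i, ∑ j, π i * Φ i j * ψ j := by
      have e2 : ∀ a, ∑ c, π a * pathM1 A Φ (s + 1) a c * ψ c
          = ∑ c, π a * pathM1 A Φ s a c * (∑ l, A c l * ψ l)
            + ∑ i, π a * (A ^ s) a i * ∑ j, Φ i j * ψ j := by
        intro a
        simp only [pathM1_succ, Matrix.add_apply, Matrix.mul_apply, mul_add, add_mul,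
          Finset.sum_add_distrib, Finset.mul_sum, Finset.sum_mul]
        congr 1
        · rw [Finset.sum_comm]
          apply Finset.sum_congr rfl
          intro c _
          apply Finset.sum_congr rfl
          intro l _
          ring
        · rw [Finset.sum_comm]
          apply Finset.sum_congr rfl
          intro c _
          apply Finset.sum_congr rfl
          intro l _
          ring
      simp only [e2, Finset.sum_add_distrib]
      congr 1
      rw [Finset.sum_comm]
      apply Finset.sum_congr rfl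
      intro i _
      rw [← Finset.sum_mul, h.pow_stat s i, Finset.mul_sum]
      apply Finset.sum_congr rfl
      intro j _
      ring
    rw [e1, ih]
    simp only [Finset.sum_range_succ', pow_zero, Matrix.one_apply, mul_add, Finset.sum_add_distrib]
    congr 1
    · apply Finset.sum_congr rfl
      intro i _
      apply Finset.sum_congr rfl
      intro j _
      congr 1
      apply Finset.sum_congr rfl
      intro k _
      simp only [pow_succ, Matrix.mul_apply, Finset.mul_sum, Finset.sum_mul]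
      rw [Finset.sum_comm]
      apply Finset.sum_congr rfl
      intro l _
      apply Finset.sum_congr rfl
      intro m _
      ring
    · apply Finset.sum_congr rfl
      intro i _
      apply Finset.sum_congr rfl
      intro j _
      simp

/-- Total second moment under the stationary measure, given a finite-horizon potential bound
`Q` for the row sums `φ l = ∑_j Φ l j`. -/
theorem pathM2_total {π : V → ℝ} (h : RevChain π A) (hg : ∀ i j, 0 ≤ g i j)
    (hΦ : ∀ i j, Φ i j = A i j * g i j) (hΦ2 : ∀ i j, Φ2 i j = A i j * g i j ^ 2)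
    {Gmax Q : ℝ} (hgmax : ∀ i j, g i j ≤ Gmax) (S : ℕ)
    (hQ : ∀ s, s ≤ S → ∀ j, ∑ k ∈ Finset.range s, ∑ l, (A ^ k) j l * ∑ j', Φ l j' ≤ Q)
    (s : ℕ) (hs : s ≤ S) :
    ∑ a, ∑ b, π a * pathM2 A Φ Φ2 s a b ≤ (s : ℝ) * (Gmax + 2 * Q) * ∑ i, ∑ j, π i * Φ i j := by
  have hA := h.A_nonneg
  have hΦ0 : ∀ i j, 0 ≤ Φ i j := fun i j => by rw [hΦ]; exact mul_nonneg (hA i j) (hg i j)
  induction s with
  | zero => simp [pathM2_zero]
  | succ s ih =>
    have ih' := ih (by omega)
    have hQs := hQ s (by omega)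
    have e1 : ∑ a, ∑ b, π a * pathM2 A Φ Φ2 (s + 1) a b
        = ∑ a, ∑ b, π a * pathM2 A Φ Φ2 s a b
          + 2 * ∑ a, ∑ c, π a * pathM1 A Φ s a c * (∑ j', Φ c j')
          + ∑ c, ∑ b, π c * Φ2 c b := by
      have e2 : ∀ a, ∑ b, π a * pathM2 A Φ Φ2 (s + 1) a b
          = ∑ b, π a * pathM2 A Φ Φ2 s a b
            + 2 * ∑ c, π a * pathM1 A Φ s a c * (∑ j', Φ c j')
            + ∑ c, π a * (A ^ s) a c * ∑ b, Φ2 c b := by
        intro a
        simp only [pathM2_succ_apply, mul_add, Finset.sum_add_distrib]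
        congr 1
        · congr 1
          · rw [Finset.sum_congr rfl (fun b _ => Finset.mul_sum _ _ _), Finset.sum_comm]
            apply Finset.sum_congr rfl
            intro c _
            rw [← Finset.mul_sum, ← Finset.mul_sum, h.A_row c, mul_one]
          · simp only [Finset.mul_sum]
            rw [Finset.sum_comm]
            apply Finset.sum_congr rfl
            intro c _
            apply Finset.sum_congr rfl
            intro b _
            ring
        · simp only [Finset.mul_sum]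
          rw [Finset.sum_comm]
          apply Finset.sum_congr rfl
          intro c _
          apply Finset.sum_congr rfl
          intro b _
          ring
      simp only [e2, Finset.sum_add_distrib, ← Finset.mul_sum]
      congr 1
      rw [Finset.sum_comm]
      apply Finset.sum_congr rfl
      intro c _
      rw [← Finset.sum_mul, h.pow_stat s c, Finset.mul_sum]
    have hU : ∑ a, ∑ c, π a * pathM1 A Φ s a c * (∑ j', Φ c j')
        ≤ Q * ∑ i, ∑ j, π i * Φ i j := by
      rw [pathM1_weighted h s, Finset.mul_sum]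
      apply Finset.sum_le_sum
      intro i _
      rw [Finset.mul_sum]
      apply Finset.sum_le_sum
      intro j _
      rw [mul_comm Q]
      exact mul_le_mul_of_nonneg_left (hQs j) (mul_nonneg (h.pi_nonneg i) (hΦ0 i j))
    have hΦ2le : ∑ c, ∑ b, π c * Φ2 c b ≤ Gmax * ∑ i, ∑ j, π i * Φ i j := by
      rw [Finset.mul_sum]
      apply Finset.sum_le_sum
      intro i _
      rw [Finset.mul_sum]
      apply Finset.sum_le_sum
      intro j _
      rw [hΦ2, hΦ]
      have h1 : A i j * g i j ^ 2 ≤ Gmax * (A i j * g i j) := by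
        have h2 : g i j ^ 2 ≤ Gmax * g i j := by
          rw [sq]
          exact mul_le_mul_of_nonneg_right (hgmax i j) (hg i j)
        calc A i j * g i j ^ 2 ≤ A i j * (Gmax * g i j) := mul_le_mul_of_nonneg_left h2 (hA i j)
          _ = _ := by ring
      calc π i * (A i j * g i j ^ 2) ≤ π i * (Gmax * (A i j * g i j)) :=
            mul_le_mul_of_nonneg_left h1 (h.pi_nonneg i)
        _ = _ := by ring
    rw [e1]
    push_cast
    nlinarith [ih', hU, hΦ2le]

end Vale.Agent.H37
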