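import Vale.Agent.H37.Cotype.Pair4Stmt

-- Frozen copy (only the import lines changed) of Vale/Agent/H25/P138/Pair4b.lean, proved by helper25;
-- kept here so that the P138 hand-in has one self-contained import closure.

/-!
Pair inequality, part 4b (TASK G): the two-sided truncated term as a path sum.
-/

namespace Vale.Agent.H37

open Finset Matrix

variable {V : Type} [Fintype V] [DecidableEq V]
variable {π : V → ℝ} {A : Matrix V V ℝ} {α : ℝ} {G : Matrix V V ℝ}

/-- The two-sided truncated term is dominated by first-moment path sums. -/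
theorem path_term (h : RevChain π A) (hα0 : 0 ≤ α) (hα1 : α ≤ 1) (G : Matrix V V ℝ)
    (f f' : V → ℝ) (K : ℕ) :
    ∑ i, ∑ j, π i * A i j * rew A α G f f' i j * twoSided (kernK α A K) f f' i j
      ≤ (1 - α) ^ 2 * ∑ s ∈ Finset.Icc 1 (2 * K), ∑ a, ∑ b,
          π a * pathM1 A (rewM A α G f f') s a b * sepf f f' a b := by
  have hk0 : ∀ i j, 0 ≤ kernK α A K i j := by
    intro i j
    unfold kernK
    exact mul_nonneg (by linarith)
      (Finset.sum_nonneg fun k _ => mul_nonneg (pow_nonneg hα0 k) (h.pow_nonneg k i j))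
  -- step 1: the truncated kernel is dominated by the power sum
  have h1 : ∀ i j, twoSided (kernK α A K) f f' i j
      ≤ (1 - α) ^ 2 * ∑ a, ∑ b, powSum A K i a * powSum A K j b * sepf f f' a b := by
    intro i j
    unfold twoSided
    rw [Finset.mul_sum]
    refine Finset.sum_le_sum fun a _ => ?_
    rw [Finset.mul_sum]
    refine Finset.sum_le_sum fun b _ => ?_
    have x0 := hk0 i a
    have y0 := hk0 j b
    have x1 := kernK_le_powSum h hα0 hα1 K i a
    have y1 := kernK_le_powSum h hα0 hα1 K j b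
    have s0 := sepf_nonneg f f' a b
    have hxy : kernK α A K i a * kernK α A K j b
        ≤ ((1 - α) * powSum A K i a) * ((1 - α) * powSum A K j b) :=
      mul_le_mul x1 y1 y0 (le_trans x0 x1)
    calc kernK α A K i a * kernK α A K j b * sepf f f' a b
        ≤ ((1 - α) * powSum A K i a) * ((1 - α) * powSum A K j b) * sepf f f' a b :=
          mul_le_mul_of_nonneg_right hxy s0
      _ = (1 - α) ^ 2 * (powSum A K i a * powSum A K j b * sepf f f' a b) := by ring
  -- step 2: sum over the edge measure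
  have h2 : ∑ i, ∑ j, π i * A i j * rew A α G f f' i j * twoSided (kernK α A K) f f' i j
      ≤ ∑ i, ∑ j, π i * A i j * rew A α G f f' i j *
          ((1 - α) ^ 2 * ∑ a, ∑ b, powSum A K i a * powSum A K j b * sepf f f' a b) :=
    Finset.sum_le_sum fun i _ => Finset.sum_le_sum fun j _ =>
      mul_le_mul_of_nonneg_left (h1 i j)
        (mul_nonneg (mul_nonneg (h.pi_nonneg i) (h.A_nonneg i j)) (rew_nonneg h α G f f' i j))
  have e3 : ∑ i, ∑ j, π i * A i j * rew A α G f f' i j *
          ((1 - α) ^ 2 * ∑ a, ∑ b, powSum A K i a * powSum A K j b * sepf f f' a b)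
      = (1 - α) ^ 2 * ∑ i, ∑ j, π i * rewM A α G f f' i j *
          (∑ a, ∑ b, powSum A K i a * powSum A K j b * sepf f f' a b) := by
    rw [Finset.mul_sum]
    refine Finset.sum_congr rfl fun i _ => ?_
    rw [Finset.mul_sum]
    refine Finset.sum_congr rfl fun j _ => ?_
    unfold rewM
    ring
  -- step 3: path form
  have e4 := twoSided_path (π := π) (powSum A K) (powSum A K) (rewM A α G f f')
    (fun i a => powSum_rev h K i a) (sepf f f')
  have hΦ : ∀ i j, 0 ≤ rewM A α G f f' i j := fun i j =>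
    mul_nonneg (h.A_nonneg i j) (rew_nonneg h α G f f' i j)
  have h5 : ∑ a, ∑ b, π a * (powSum A K * rewM A α G f f' * powSum A K) a b * sepf f f' a b
      ≤ ∑ a, ∑ b, π a * (∑ s ∈ Finset.Icc 1 (2 * K), pathM1 A (rewM A α G f f') s a b)
          * sepf f f' a b :=
    Finset.sum_le_sum fun a _ => Finset.sum_le_sum fun b _ =>
      mul_le_mul_of_nonneg_right
        (mul_le_mul_of_nonneg_left (powSum_mul_le h _ hΦ K a b) (h.pi_nonneg a))
        (sepf_nonneg f f' a b)
  have e6 : ∑ a, ∑ b, π a * (∑ s ∈ Finset.Icc 1 (2 * K), pathM1 A (rewM A α G f f') s a b)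
          * sepf f f' a b
      = ∑ s ∈ Finset.Icc 1 (2 * K), ∑ a, ∑ b,
          π a * pathM1 A (rewM A α G f f') s a b * sepf f f' a b := by
    have e : ∀ a b, π a * (∑ s ∈ Finset.Icc 1 (2 * K), pathM1 A (rewM A α G f f') s a b)
          * sepf f f' a b
        = ∑ s ∈ Finset.Icc 1 (2 * K),
            π a * pathM1 A (rewM A α G f f') s a b * sepf f f' a b := by
      intro a b
      rw [Finset.mul_sum, Finset.sum_mul]
    simp only [e]
    calc ∑ a, ∑ b, ∑ s ∈ Finset.Icc 1 (2 * K),
            π a * pathM1 A (rewM A α G f f') s a b * sepf f f' a b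
        = ∑ a, ∑ s ∈ Finset.Icc 1 (2 * K), ∑ b,
            π a * pathM1 A (rewM A α G f f') s a b * sepf f f' a b :=
          Finset.sum_congr rfl fun a _ => Finset.sum_comm
      _ = _ := Finset.sum_comm
  calc ∑ i, ∑ j, π i * A i j * rew A α G f f' i j * twoSided (kernK α A K) f f' i j
      ≤ ∑ i, ∑ j, π i * A i j * rew A α G f f' i j *
          ((1 - α) ^ 2 * ∑ a, ∑ b, powSum A K i a * powSum A K j b * sepf f f' a b) := h2
    _ = (1 - α) ^ 2 * ∑ i, ∑ j, π i * rewM A α G f f' i j *
          (∑ a, ∑ b, powSum A K i a * powSum A K j b * sepf f f' a b) := e3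
    _ = (1 - α) ^ 2 * ∑ a, ∑ b,
          π a * (powSum A K * rewM A α G f f' * powSum A K) a b * sepf f f' a b := by rw [e4]
    _ ≤ (1 - α) ^ 2 * ∑ a, ∑ b,
          π a * (∑ s ∈ Finset.Icc 1 (2 * K), pathM1 A (rewM A α G f f') s a b)
            * sepf f f' a b := mul_le_mul_of_nonneg_left h5 (sq_nonneg _)
    _ = _ := by rw [e6]

end Vale.Agent.H37
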