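import Vale.Agent.H37.Cotype.Pair4Stmt

-- Frozen copy (only the import lines changed) of Vale/Agent/H82/P138/Pair4c.lean, proved by helper82;
-- kept here so that the P138 hand-in has one self-contained import closure.

/-!
Pair inequality, part 4c (TASK H): the finite-horizon potential bound for the reward.
-/

namespace Vale.Agent.H37

open Finset Matrix

variable {V : Type} [Fintype V] [DecidableEq V]
variable {π : V → ℝ} {A : Matrix V V ℝ} {α : ℝ} {G : Matrix V V ℝ}

/-- Row sums of the reward matrix. -/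
theorem rewM_row (h : RevChain π A) (α : ℝ) (G : Matrix V V ℝ) (f f' : V → ℝ) (l : V) :
    ∑ j, rewM A α G f f' l j = 3 * phiv A α G f f' l := by
  have e : ∑ j, A l j * gam α G f f' l j = phiv A α G f f' l := rfl
  have e2 : ∀ j, rewM A α G f f' l j
      = A l j * gam α G f f' l j + 2 * phiv A α G f f' l * A l j := by
    intro j
    show A l j * (gam α G f f' l j + 2 * phiv A α G f f' l) = _
    ring
  simp only [e2, Finset.sum_add_distrib, ← Finset.mul_sum, h.A_row, e]
  ring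

/-- Finite-horizon potential of the reward: at most `24 / α^S` up to time `S`. -/
theorem potential_bound (h : RevChain π A) (hG : IsResolvent π A α G) (hα0 : 1 / 2 ≤ α)
    (hα1 : α < 1) {f f' : V → ℝ} (hf : ∀ i, f i = 0 ∨ f i = 1) (hf' : ∀ i, f' i = 0 ∨ f' i = 1)
    (S : ℕ) (s : ℕ) (hs : s ≤ S) (j : V) :
    ∑ k ∈ Finset.range s, ∑ l, (A ^ k) j l * ∑ j', rewM A α G f f' l j' ≤ 24 * (1 / α) ^ S := by
  have hαpos : 0 < α := by linarith
  set w : V → ℝ := fun l => 3 * phiv A α G f f' l with hw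
  have hw0 : ∀ l, 0 ≤ w l := fun l => by
    have := phiv_nonneg h α G f f' l
    simp only [hw]; linarith
  have hrow : ∀ l, ∑ j', rewM A α G f f' l j' = w l := fun l => rewM_row h α G f f' l
  simp only [hrow]
  have hf0 : ∀ i, 0 ≤ f i := fun i => by rcases hf i with e | e <;> rw [e] <;> norm_num
  have hf1 : ∀ i, f i ≤ 1 := fun i => by rcases hf i with e | e <;> rw [e] <;> norm_num
  have hf'0 : ∀ i, 0 ≤ f' i := fun i => by rcases hf' i with e | e <;> rw [e] <;> norm_num
  have hf'1 : ∀ i, f' i ≤ 1 := fun i => by rcases hf' i with e | e <;> rw [e] <;> norm_num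
  set Γ : (V → ℝ) → V → ℝ :=
    fun g l => ∑ i, A l i * (smooth α G g i - smooth α G g l) ^ 2 with hΓ
  have hΓ0 : ∀ g l, 0 ≤ Γ g l := fun g l =>
    Finset.sum_nonneg fun i _ => mul_nonneg (h.A_nonneg l i) (sq_nonneg _)
  have hphi : ∀ l, phiv A α G f f' l ≤ 2 * Γ f l + 2 * Γ f' l := by
    intro l
    calc phiv A α G f f' l = ∑ i, A l i * gam α G f f' l i := rfl
      _ ≤ ∑ i, A l i * (2 * (smooth α G f i - smooth α G f l) ^ 2
            + 2 * (smooth α G f' i - smooth α G f' l) ^ 2) :=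
          Finset.sum_le_sum fun i _ =>
            mul_le_mul_of_nonneg_left (gam_le_energy α G f f' l i) (h.A_nonneg l i)
      _ = 2 * Γ f l + 2 * Γ f' l := by
          simp only [hΓ, Finset.mul_sum, ← Finset.sum_add_distrib]
          exact Finset.sum_congr rfl fun i _ => by ring
  have hen : ∀ g : V → ℝ, (∀ i, 0 ≤ g i) → (∀ i, g i ≤ 1) →
      α * ∑ k, G j k * Γ g k ≤ 1 := by
    intro g hg0 hg1
    exact hG.energy h hα1 g hg0 hg1 j
  have hGw : ∑ l, G j l * w l ≤ 24 := by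
    have e1 := hen f hf0 hf1
    have e2 := hen f' hf'0 hf'1
    have hle : ∑ l, G j l * w l ≤ 6 * ∑ l, G j l * Γ f l + 6 * ∑ l, G j l * Γ f' l := by
      rw [Finset.mul_sum, Finset.mul_sum, ← Finset.sum_add_distrib]
      refine Finset.sum_le_sum fun l _ => ?_
      have h1 := hphi l
      have hg := hG.nonneg j l
      simp only [hw]
      nlinarith
    have hS1 : 0 ≤ ∑ l, G j l * Γ f l :=
      Finset.sum_nonneg fun l _ => mul_nonneg (hG.nonneg j l) (hΓ0 f l)
    have hS2 : 0 ≤ ∑ l, G j l * Γ f' l :=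
      Finset.sum_nonneg fun l _ => mul_nonneg (hG.nonneg j l) (hΓ0 f' l)
    nlinarith
  have hgeom := hG.geom_le h hαpos.le w hw0 s j
  have hinv : (1 : ℝ) ≤ 1 / α := by rw [le_div_iff₀ hαpos]; linarith
  have hterm : ∀ k ∈ Finset.range s, ∑ l, (A ^ k) j l * w l
      ≤ (1 / α) ^ S * (α ^ k * ∑ l, (A ^ k) j l * w l) := by
    intro k hk
    have hk' : k ≤ S := le_trans (Finset.mem_range.1 hk).le hs
    have hnn : 0 ≤ ∑ l, (A ^ k) j l * w l :=
      Finset.sum_nonneg fun l _ => mul_nonneg (h.pow_nonneg k j l) (hw0 l)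
    have h1 : (1 : ℝ) ≤ (1 / α) ^ S * α ^ k := by
      have e : (1 / α) ^ k * α ^ k = 1 := by
        rw [← mul_pow, one_div, inv_mul_cancel₀ hαpos.ne', one_pow]
      have h2 : (1 / α) ^ k ≤ (1 / α) ^ S := pow_le_pow_right₀ hinv hk'
      calc (1 : ℝ) = (1 / α) ^ k * α ^ k := e.symm
        _ ≤ (1 / α) ^ S * α ^ k := mul_le_mul_of_nonneg_right h2 (pow_nonneg hαpos.le k)
    calc ∑ l, (A ^ k) j l * w l = 1 * ∑ l, (A ^ k) j l * w l := (one_mul _).symm
      _ ≤ ((1 / α) ^ S * α ^ k) * ∑ l, (A ^ k) j l * w l :=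
          mul_le_mul_of_nonneg_right h1 hnn
      _ = _ := by ring
  calc ∑ k ∈ Finset.range s, ∑ l, (A ^ k) j l * w l
      ≤ ∑ k ∈ Finset.range s, (1 / α) ^ S * (α ^ k * ∑ l, (A ^ k) j l * w l) :=
        Finset.sum_le_sum hterm
    _ = (1 / α) ^ S * ∑ k ∈ Finset.range s, α ^ k * ∑ l, (A ^ k) j l * w l := by
        rw [Finset.mul_sum]
    _ ≤ (1 / α) ^ S * 24 :=
        mul_le_mul_of_nonneg_left (le_trans hgeom hGw) (by positivity)
    _ = 24 * (1 / α) ^ S := by ring

end Vale.Agent.H37
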