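import Vale.Agent.H37.Cotype.Pair4Stmt

-- Frozen copy (only the import lines changed) of Vale/Agent/H22/P138/Pair4d.lean, proved by helper22;
-- kept here so that the P138 hand-in has one self-contained import closure.

/-!
Pair inequality, part 4d (TASK I): Cauchy-Schwarz step for a fixed path length.
-/

namespace Vale.Agent.H37

open Finset Matrix

variable {V : Type} [Fintype V] [DecidableEq V]
variable {π : V → ℝ} {A : Matrix V V ℝ} {α : ℝ} {G : Matrix V V ℝ}

/-- Total reward under the stationary edge measure. -/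
theorem sum_rew (h : RevChain π A) (α : ℝ) (G : Matrix V V ℝ) (f f' : V → ℝ) :
    ∑ i, ∑ j, π i * rewM A α G f f' i j = 3 * Etot π A α G f f' := by
  rw [Etot_eq, Finset.mul_sum]
  refine Finset.sum_congr rfl fun i _ => ?_
  have e1 : ∀ j, π i * rewM A α G f f' i j
      = π i * (A i j * gam α G f f' i j) + 2 * π i * phiv A α G f f' i * A i j := by
    intro j
    unfold rewM rew
    ring
  simp only [e1]
  rw [Finset.sum_add_distrib, ← Finset.mul_sum, ← Finset.mul_sum, h.A_row i]
  have e2 : ∑ j, A i j * gam α G f f' i j = phiv A α G f f' i := rfl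
  rw [e2]
  ring

/-- Cauchy-Schwarz for paths of length `s`, given a potential bound `Q` up to time `S`. -/
theorem cs_step (h : RevChain π A) (α : ℝ) (G : Matrix V V ℝ) {f f' : V → ℝ}
    (hf : ∀ i, f i = 0 ∨ f i = 1) (hf' : ∀ i, f' i = 0 ∨ f' i = 1) {Q : ℝ} (S : ℕ)
    (hQ : ∀ s, s ≤ S → ∀ j,
      ∑ k ∈ Finset.range s, ∑ l, (A ^ k) j l * ∑ j', rewM A α G f f' l j' ≤ Q)
    {β : ℝ} (hβ : 0 < β) (s : ℕ) (hs : s ≤ S) :
    ∑ a, ∑ b, π a * pathM1 A (rewM A α G f f') s a b * sepf f f' a b
      ≤ β / 2 * sepProb π A f f' s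
        + 1 / (2 * β) * ((s : ℝ) * (3 + 2 * Q) * (3 * Etot π A α G f f')) := by
  have hA := h.A_nonneg
  have hg : ∀ i j, 0 ≤ rew A α G f f' i j := fun i j => rew_nonneg h α G f f' i j
  have hΦ : ∀ i j, rewM A α G f f' i j = A i j * rew A α G f f' i j := fun _ _ => rfl
  have hΦ2 : ∀ i j, rewM2 A α G f f' i j = A i j * rew A α G f f' i j ^ 2 := fun _ _ => rfl
  have hΦ0 : ∀ i j, 0 ≤ rewM A α G f f' i j := fun i j => by
    rw [hΦ]; exact mul_nonneg (hA i j) (hg i j)
  have hΦ20 : ∀ i j, 0 ≤ rewM2 A α G f f' i j := fun i j => by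
    rw [hΦ2]; exact mul_nonneg (hA i j) (sq_nonneg _)
  -- pointwise bound
  have hpt : ∀ a b, π a * pathM1 A (rewM A α G f f') s a b * sepf f f' a b
      ≤ β / 2 * (π a * (A ^ s) a b * sepf f f' a b)
        + 1 / (2 * β) * (π a * pathM2 A (rewM A α G f f') (rewM2 A α G f f') s a b) := by
    intro a b
    have h1 := pathM1_amgm hA hg hΦ hΦ2 s a b hβ
    have h2 := pathM2_nonneg hA hΦ0 hΦ20 s a b
    have h3 := sepf_nonneg f f' a b
    have h4 := sepf_le_one hf hf' a b
    have h5 := h.pi_nonneg a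
    have h6 : 0 ≤ π a * sepf f f' a b := mul_nonneg h5 h3
    have h7 : π a * pathM1 A (rewM A α G f f') s a b * sepf f f' a b
        ≤ (β / 2 * (A ^ s) a b
            + 1 / (2 * β) * pathM2 A (rewM A α G f f') (rewM2 A α G f f') s a b)
          * (π a * sepf f f' a b) := by
      have := mul_le_mul_of_nonneg_right h1 h6
      linarith
    have h8 : 0 ≤ 1 / (2 * β) := by positivity
    have h9 : π a * pathM2 A (rewM A α G f f') (rewM2 A α G f f') s a b * sepf f f' a b
        ≤ π a * pathM2 A (rewM A α G f f') (rewM2 A α G f f') s a b := by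
      have : 0 ≤ π a * pathM2 A (rewM A α G f f') (rewM2 A α G f f') s a b := mul_nonneg h5 h2
      nlinarith
    have h10 : 1 / (2 * β) * (π a * pathM2 A (rewM A α G f f') (rewM2 A α G f f') s a b
          * sepf f f' a b)
        ≤ 1 / (2 * β) * (π a * pathM2 A (rewM A α G f f') (rewM2 A α G f f') s a b) :=
      mul_le_mul_of_nonneg_left h9 h8
    calc π a * pathM1 A (rewM A α G f f') s a b * sepf f f' a b
        ≤ (β / 2 * (A ^ s) a b
            + 1 / (2 * β) * pathM2 A (rewM A α G f f') (rewM2 A α G f f') s a b)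
          * (π a * sepf f f' a b) := h7
      _ = β / 2 * (π a * (A ^ s) a b * sepf f f' a b)
          + 1 / (2 * β) * (π a * pathM2 A (rewM A α G f f') (rewM2 A α G f f') s a b
            * sepf f f' a b) := by ring
      _ ≤ _ := by linarith
  have htot := pathM2_total h hg hΦ hΦ2 (fun i j => rew_le h α G f f' i j) S hQ s hs
  rw [sum_rew h α G f f'] at htot
  have h8 : 0 ≤ 1 / (2 * β) := by positivity
  calc ∑ a, ∑ b, π a * pathM1 A (rewM A α G f f') s a b * sepf f f' a b
      ≤ ∑ a, ∑ b, (β / 2 * (π a * (A ^ s) a b * sepf f f' a b)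
        + 1 / (2 * β) * (π a * pathM2 A (rewM A α G f f') (rewM2 A α G f f') s a b)) :=
        Finset.sum_le_sum fun a _ => Finset.sum_le_sum fun b _ => hpt a b
    _ = β / 2 * sepProb π A f f' s
        + 1 / (2 * β) * ∑ a, ∑ b, π a * pathM2 A (rewM A α G f f') (rewM2 A α G f f') s a b := by
        unfold sepProb
        simp only [Finset.sum_add_distrib, Finset.mul_sum]
    _ ≤ _ := by
        have := mul_le_mul_of_nonneg_left htot h8
        linarith

end Vale.Agent.H37
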