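import Vale.Agent.H37.Cotype.Pair4Stmt

-- Frozen copy (only the import lines changed) of Vale/Agent/H80/P138/Pair4e.lean, proved by helper80;
-- kept here so that the P138 hand-in has one self-contained import closure.

/-!
Pair inequality, part 4e (TASK J): numeric facts about `α = t/(t+1)` and `K = 11 (t+1)`.
-/

namespace Vale.Agent.H37

theorem alpha_half (t : ℕ) (ht : 1 ≤ t) : (1 : ℝ) / 2 ≤ (t : ℝ) / (t + 1) := by
  have h1 : (1 : ℝ) ≤ (t : ℝ) := by exact_mod_cast ht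
  rw [div_le_div_iff₀ (by norm_num) (by linarith)]
  linarith

theorem alpha_lt_one (t : ℕ) : (t : ℝ) / (t + 1) < 1 := by
  have h0 : (0 : ℝ) ≤ (t : ℝ) := Nat.cast_nonneg t
  rw [div_lt_one (by linarith)]
  linarith

theorem one_sub_alpha (t : ℕ) : 1 - (t : ℝ) / (t + 1) = 1 / ((t : ℝ) + 1) := by
  have h0 : (0 : ℝ) ≤ (t : ℝ) := Nat.cast_nonneg t
  have h1 : ((t : ℝ) + 1) ≠ 0 := by linarith
  field_simp
  ring

theorem alpha_pow_small (t : ℕ) (ht : 1 ≤ t) :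
    ((t : ℝ) / (t + 1)) ^ (11 * (t + 1)) ≤ 1 / 2048 := by
  have h1 : (1 : ℝ) ≤ (t : ℝ) := by exact_mod_cast ht
  have htpos : (0 : ℝ) < (t : ℝ) := by linarith
  have ht1pos : (0 : ℝ) < (t : ℝ) + 1 := by linarith
  -- Bernoulli: (1 + 1/t)^(t+1) ≥ 1 + (t+1)/t ≥ 2
  have hB : (2 : ℝ) ≤ (1 + 1 / (t : ℝ)) ^ (t + 1) := by
    have hb := one_add_mul_le_pow (show (-2 : ℝ) ≤ 1 / (t : ℝ) by
      have : (0 : ℝ) ≤ 1 / (t : ℝ) := by positivity
      linarith) (t + 1)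
    have hge : (2 : ℝ) ≤ 1 + ((t + 1 : ℕ) : ℝ) * (1 / (t : ℝ)) := by
      push_cast
      have : (1 : ℝ) ≤ ((t : ℝ) + 1) * (1 / (t : ℝ)) := by
        rw [mul_one_div, le_div_iff₀ htpos]
        linarith
      linarith
    linarith
  have hinv : (t : ℝ) / (t + 1) = (1 + 1 / (t : ℝ))⁻¹ := by
    field_simp
  have hhalf : ((t : ℝ) / (t + 1)) ^ (t + 1) ≤ 1 / 2 := by
    rw [hinv, inv_pow]
    rw [inv_le_comm₀ (by positivity) (by norm_num)]
    simpa using hB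
  have hnn : (0 : ℝ) ≤ ((t : ℝ) / (t + 1)) ^ (t + 1) := by positivity
  calc ((t : ℝ) / (t + 1)) ^ (11 * (t + 1))
      = (((t : ℝ) / (t + 1)) ^ (t + 1)) ^ 11 := by
        rw [← pow_mul, mul_comm]
    _ ≤ (1 / 2 : ℝ) ^ 11 := pow_le_pow_left₀ hnn hhalf 11
    _ = 1 / 2048 := by norm_num

theorem alpha_inv_pow (t : ℕ) (ht : 1 ≤ t) :
    (1 / ((t : ℝ) / (t + 1))) ^ (2 * (11 * (t + 1))) ≤ Real.exp 44 := by
  have h1 : (1 : ℝ) ≤ (t : ℝ) := by exact_mod_cast ht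
  have htpos : (0 : ℝ) < (t : ℝ) := by linarith
  have ht1pos : (0 : ℝ) < (t : ℝ) + 1 := by linarith
  have heq : 1 / ((t : ℝ) / (t + 1)) = 1 / (t : ℝ) + 1 := by
    field_simp
    ring
  have hle : 1 / (t : ℝ) + 1 ≤ Real.exp (1 / (t : ℝ)) := Real.add_one_le_exp _
  have hnn : (0 : ℝ) ≤ 1 / (t : ℝ) + 1 := by positivity
  calc (1 / ((t : ℝ) / (t + 1))) ^ (2 * (11 * (t + 1)))
      = (1 / (t : ℝ) + 1) ^ (2 * (11 * (t + 1))) := by rw [heq]
    _ ≤ (Real.exp (1 / (t : ℝ))) ^ (2 * (11 * (t + 1))) := pow_le_pow_left₀ hnn hle _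
    _ = Real.exp (((2 * (11 * (t + 1)) : ℕ) : ℝ) * (1 / (t : ℝ))) := by
        rw [← Real.exp_nat_mul]
    _ ≤ Real.exp 44 := by
        apply Real.exp_le_exp.mpr
        push_cast
        rw [mul_one_div, div_le_iff₀ htpos]
        linarith

theorem one_sub_alpha_mul (t : ℕ) :
    (1 - (t : ℝ) / (t + 1)) * ((11 * (t + 1) : ℕ) : ℝ) = 11 := by
  have h0 : (0 : ℝ) ≤ (t : ℝ) := Nat.cast_nonneg t
  have h1 : ((t : ℝ) + 1) ≠ 0 := by linarith
  push_cast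
  field_simp
  ring

end Vale.Agent.H37
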