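import Vale.Agent.H37.Cotype.Resolvent
import Vale.Agent.H37.Cotype.Local

-- Frozen copy (only the import lines changed) of Vale/Agent/H37/PairStmt.lean;
-- kept here so that the P138 hand-in has one self-contained import closure.

/-!
Statement of the two-cut (pair) inequality (skeleton; the proof lives in `Pair.lean`).
-/

namespace Vale.Agent.H37

open Finset Matrix

/-- The constant of the pair inequality. -/
noncomputable def pairConst : ℝ := 64 * (185856 * (3 + 2 * (24 * Real.exp 44))) + 256

theorem pairConst_pos : 0 < pairConst := by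
  unfold pairConst
  positivity

/-- The pair inequality for a chain at time scale `t`: `PairIneq π A t G` says that for all
`0/1` functions `f, f'` the joint one-step variation of the thresholded smoothings is bounded
by the probability that a pair at time distance at most `22 (t+1)` is separated by both. -/
def PairIneq {V : Type} [Fintype V] [DecidableEq V] (π : V → ℝ) (A : Matrix V V ℝ) (t : ℕ)
    (G : Matrix V V ℝ) : Prop :=
  ∀ (f f' : V → ℝ), (∀ i, f i = 0 ∨ f i = 1) → (∀ i, f' i = 0 ∨ f' i = 1) →
    ∑ i, ∑ j, π i * A i j *
        (|psi (smooth ((t : ℝ) / (t + 1)) G f i) - psi (smooth ((t : ℝ) / (t + 1)) G f j)|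
          * |psi (smooth ((t : ℝ) / (t + 1)) G f' i) - psi (smooth ((t : ℝ) / (t + 1)) G f' j)|)
      ≤ pairConst * (1 / ((t : ℝ) + 1)) ^ 2 *
          ∑ s ∈ Finset.Icc 1 (22 * (t + 1)), ∑ a, ∑ b,
            π a * (A ^ s) a b * (|f a - f b| * |f' a - f' b|)

end Vale.Agent.H37
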