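import Vale.Agent.H37.Cotype.Pair4Stmt

-- Frozen copy (only the import lines changed) of Vale/Agent/H21/P138/Pair4a.lean, proved by helper21;
-- kept here so that the P138 hand-in has one self-contained import closure.

/-!
Pair inequality, part 4a (TASK F of the P138 plan): the one-sided term.
Proved by helper21 for helper37; same names and namespace as the stub in `H37/Pair4a.lean`.
-/

namespace Vale.Agent.H37

open Finset Matrix

variable {V : Type} [Fintype V] [DecidableEq V]
variable {π : V → ℝ} {A : Matrix V V ℝ} {α : ℝ} {G : Matrix V V ℝ}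

theorem sepProb_zero (π : V → ℝ) (A : Matrix V V ℝ) (f f' : V → ℝ) :
    sepProb π A f f' 0 = 0 := by
  unfold sepProb
  refine Finset.sum_eq_zero fun a _ => Finset.sum_eq_zero fun b _ => ?_
  rw [pow_zero, Matrix.one_apply]
  by_cases hab : a = b
  · subst hab
    rw [sepf_self]
    ring
  · rw [if_neg hab]
    ring

theorem sepProb_nonneg (h : RevChain π A) (f f' : V → ℝ) (s : ℕ) :
    0 ≤ sepProb π A f f' s := by
  unfold sepProb
  exact Finset.sum_nonneg fun a _ => Finset.sum_nonneg fun b _ =>
    mul_nonneg (mul_nonneg (h.pi_nonneg a) (h.pow_nonneg s a b)) (sepf_nonneg f f' a b)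

/-- The one-sided truncated term is a short-window separation probability. -/
theorem qK_sum (h : RevChain π A) (hα0 : 0 ≤ α) (hα1 : α ≤ 1) (f f' : V → ℝ) (K : ℕ) :
    ∑ i, π i * ∑ a, kernK α A K i a * sepf f f' a i
      ≤ (1 - α) * ∑ s ∈ Finset.Icc 1 (2 * K), sepProb π A f f' s := by
  have e1 : ∑ i, π i * ∑ a, kernK α A K i a * sepf f f' a i
      = (1 - α) * ∑ k ∈ Finset.range K, α ^ k * sepProb π A f f' k := by
    have e2 : ∀ i, π i * ∑ a, kernK α A K i a * sepf f f' a i
        = ∑ k ∈ Finset.range K, (1 - α) * (α ^ k * ∑ a, π i * (A ^ k) i a * sepf f f' i a) := by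
      intro i
      have e3 : ∀ a, kernK α A K i a * sepf f f' a i
          = ∑ k ∈ Finset.range K, (1 - α) * (α ^ k * ((A ^ k) i a * sepf f f' i a)) := by
        intro a
        unfold kernK
        rw [sepf_comm f f' a i, Finset.mul_sum, Finset.sum_mul]
        exact Finset.sum_congr rfl fun k _ => by ring
      simp only [e3]
      rw [Finset.sum_comm, Finset.mul_sum]
      refine Finset.sum_congr rfl fun k _ => ?_
      rw [Finset.mul_sum, Finset.mul_sum, Finset.mul_sum]
      exact Finset.sum_congr rfl fun a _ => by ring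
    simp only [e2]
    rw [Finset.sum_comm, Finset.mul_sum]
    refine Finset.sum_congr rfl fun k _ => ?_
    unfold sepProb
    rw [← Finset.mul_sum, ← Finset.mul_sum]
  rw [e1]
  apply mul_le_mul_of_nonneg_left _ (by linarith)
  have h1 : ∑ k ∈ Finset.range K, α ^ k * sepProb π A f f' k
      ≤ ∑ k ∈ Finset.range K, sepProb π A f f' k := by
    refine Finset.sum_le_sum fun k _ => ?_
    have hk : α ^ k ≤ 1 := pow_le_one₀ hα0 hα1
    have hs := sepProb_nonneg h f f' k
    nlinarith
  have h2 : ∑ k ∈ Finset.range K, sepProb π A f f' k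
      = ∑ k ∈ (Finset.range K).filter (fun k => k ≠ 0), sepProb π A f f' k := by
    rw [Finset.sum_filter]
    refine Finset.sum_congr rfl fun k _ => ?_
    by_cases hk : k = 0
    · subst hk
      simp [sepProb_zero]
    · simp [hk]
  have h3 : ∑ k ∈ (Finset.range K).filter (fun k => k ≠ 0), sepProb π A f f' k
      ≤ ∑ s ∈ Finset.Icc 1 (2 * K), sepProb π A f f' s := by
    apply Finset.sum_le_sum_of_subset_of_nonneg
    · intro k hk
      rw [Finset.mem_filter, Finset.mem_range] at hk
      rw [Finset.mem_Icc]
      omega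
    · intro s _ _
      exact sepProb_nonneg h f f' s
  linarith

end Vale.Agent.H37
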