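import Vale.Agent.H37.Cotype.Chain

-- Frozen copy (only the import lines changed) of Vale/Agent/H37/Resolvent.lean;
-- kept here so that the P138 hand-in has one self-contained import closure.

/-!
The resolvent `G = (1 - α A)⁻¹` of a reversible chain, `0 ≤ α < 1`: existence, positivity,
row sums, reversibility, finite expansions, and the energy (potential) bound.
-/

namespace Vale.Agent.H37

open Finset Matrix

variable {V : Type} [Fintype V] [DecidableEq V]
variable {π : V → ℝ} {A : Matrix V V ℝ}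

theorem mulVec_apply' (M : Matrix V V ℝ) (w : V → ℝ) (i : V) :
    (M *ᵥ w) i = ∑ j, M i j * w j := rfl

theorem resolvent_op_apply (A : Matrix V V ℝ) (α : ℝ) (w : V → ℝ) (i : V) :
    ((1 - α • A) *ᵥ w) i = w i - α * ∑ j, A i j * w j := by
  rw [Matrix.sub_mulVec, Matrix.one_mulVec, Matrix.smul_mulVec]
  simp [mulVec_apply']

/-- Maximum principle for `1 - α A`. -/
theorem RevChain.maxprin (h : RevChain π A) {α : ℝ} (hα0 : 0 ≤ α) (hα1 : α < 1) (w : V → ℝ)
    (hw : ∀ i, 0 ≤ w i - α * ∑ j, A i j * w j) : ∀ i, 0 ≤ w i := by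
  intro i
  obtain ⟨i0, -, hi0⟩ := Finset.exists_min_image Finset.univ w ⟨i, Finset.mem_univ i⟩
  have hmin : ∀ j, w i0 ≤ w j := fun j => hi0 j (Finset.mem_univ j)
  have h1 : w i0 ≤ ∑ j, A i0 j * w j := by
    calc w i0 = ∑ j, A i0 j * w i0 := by rw [← Finset.sum_mul, h.A_row, one_mul]
      _ ≤ ∑ j, A i0 j * w j :=
        Finset.sum_le_sum fun j _ => mul_le_mul_of_nonneg_left (hmin j) (h.A_nonneg i0 j)
  have h2 := hw i0
  have h4 : 0 ≤ w i0 := by
    by_contra hneg
    simp only [not_le] at hneg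
    nlinarith
  exact le_trans h4 (hmin i)

/-- `G` is the resolvent of the chain at parameter `α`. -/
structure IsResolvent (π : V → ℝ) (A : Matrix V V ℝ) (α : ℝ) (G : Matrix V V ℝ) : Prop where
  left : (1 - α • A) * G = 1
  right : G * (1 - α • A) = 1
  nonneg : ∀ i j, 0 ≤ G i j
  row : ∀ i, ∑ j, G i j = 1 / (1 - α)
  rev : ∀ i j, π i * G i j = π j * G j i

theorem RevChain.exists_resolvent (h : RevChain π A) {α : ℝ} (hα0 : 0 ≤ α) (hα1 : α < 1) :
    ∃ G : Matrix V V ℝ, IsResolvent π A α G := by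
  set N : Matrix V V ℝ := 1 - α • A with hN
  have hinj : Function.Injective N.mulVec := by
    intro w w' hww
    have h0 : N *ᵥ (w - w') = 0 := by
      rw [Matrix.mulVec_sub, hww, sub_self]
    have hpos : ∀ i, 0 ≤ (w - w') i := by
      apply h.maxprin hα0 hα1
      intro i
      have := congrFun h0 i
      rw [hN, resolvent_op_apply] at this
      rw [this]; simp
    have hneg : ∀ i, 0 ≤ (w' - w) i := by
      apply h.maxprin hα0 hα1
      intro i
      have := congrFun h0 i
      rw [hN, resolvent_op_apply] at this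
      have e : (w' - w) i - α * ∑ j, A i j * (w' - w) j
          = -((w - w') i - α * ∑ j, A i j * (w - w') j) := by
        simp only [Pi.sub_apply]
        have : ∑ j, A i j * (w' j - w j) = -∑ j, A i j * (w j - w' j) := by
          rw [← Finset.sum_neg_distrib]
          exact Finset.sum_congr rfl fun j _ => by ring
        rw [this]; ring
      rw [e, this]; simp
    funext i
    have a := hpos i
    have b := hneg i
    simp only [Pi.sub_apply] at a b
    linarith
  have hunit : IsUnit N := Matrix.mulVec_injective_iff_isUnit.mp hinj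
  have hdet : IsUnit N.det := (Matrix.isUnit_iff_isUnit_det N).mp hunit
  have hl : N * N⁻¹ = 1 := Matrix.mul_nonsing_inv N hdet
  have hr : N⁻¹ * N = 1 := Matrix.nonsing_inv_mul N hdet
  refine ⟨N⁻¹, hl, hr, ?_, ?_, ?_⟩
  · -- nonnegativity, column by column
    intro i j
    have := h.maxprin hα0 hα1 (fun k => N⁻¹ k j) (by
      intro k
      have e : (N * N⁻¹) k j = N⁻¹ k j - α * ∑ l, A k l * N⁻¹ l j := by
        rw [hN, Matrix.sub_mul, Matrix.one_mul, Matrix.smul_mul]
        simp [Matrix.mul_apply]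
      rw [← e, hl, Matrix.one_apply]
      split_ifs <;> norm_num)
    exact this i
  · -- row sums
    intro i
    have hc : N *ᵥ (fun _ => 1 / (1 - α)) = fun _ => (1 : ℝ) := by
      funext k
      rw [hN, resolvent_op_apply, ← Finset.sum_mul, h.A_row]
      have : (1 : ℝ) - α ≠ 0 := by linarith
      field_simp
    have : N⁻¹ *ᵥ (fun _ => (1 : ℝ)) = fun _ => 1 / (1 - α) := by
      rw [← hc, Matrix.mulVec_mulVec, hr, Matrix.one_mulVec]
    have := congrFun this i
    simpa [mulVec_apply'] using this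
  · -- reversibility
    have hDN : Matrix.diagonal π * N = Nᵀ * Matrix.diagonal π := by
      ext i j
      rw [Matrix.diagonal_mul, Matrix.mul_diagonal, Matrix.transpose_apply, hN]
      simp only [Matrix.sub_apply, Matrix.smul_apply, Matrix.one_apply, smul_eq_mul]
      have := h.rev i j
      by_cases hij : i = j
      · subst hij; ring
      · have hji : ¬ j = i := fun e => hij e.symm
        simp only [hij, hji, if_false]
        linear_combination (-α) * this
    have key : Matrix.diagonal π * N⁻¹ = (N⁻¹)ᵀ * Matrix.diagonal π := by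
      calc Matrix.diagonal π * N⁻¹ = ((N * N⁻¹)ᵀ * Matrix.diagonal π) * N⁻¹ := by
            rw [hl, Matrix.transpose_one, Matrix.one_mul]
        _ = (N⁻¹)ᵀ * (Nᵀ * Matrix.diagonal π) * N⁻¹ := by
            rw [Matrix.transpose_mul, Matrix.mul_assoc (N⁻¹)ᵀ]
        _ = (N⁻¹)ᵀ * (Matrix.diagonal π * N) * N⁻¹ := by rw [hDN]
        _ = (N⁻¹)ᵀ * Matrix.diagonal π * (N * N⁻¹) := by simp only [Matrix.mul_assoc]
        _ = (N⁻¹)ᵀ * Matrix.diagonal π := by rw [hl, Matrix.mul_one]
    intro i j
    have := congrFun (congrFun key i) j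
    rw [Matrix.diagonal_mul, Matrix.mul_diagonal, Matrix.transpose_apply] at this
    linarith

variable {α : ℝ} {G : Matrix V V ℝ}

theorem IsResolvent.eq_one_add (hG : IsResolvent π A α G) : G = 1 + α • (A * G) := by
  have := hG.left
  rw [Matrix.sub_mul, Matrix.one_mul, Matrix.smul_mul] at this
  rw [← this]; abel

theorem IsResolvent.expand (hG : IsResolvent π A α G) (K : ℕ) :
    G = ∑ k ∈ Finset.range K, α ^ k • A ^ k + α ^ K • (A ^ K * G) := by
  induction K with
  | zero => simp
  | succ K ih =>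
    rw [Finset.sum_range_succ]
    have e : α ^ K • (A ^ K * G) = α ^ K • A ^ K + α ^ (K + 1) • (A ^ (K + 1) * G) := by
      conv_lhs => rw [hG.eq_one_add]
      rw [Matrix.mul_add, Matrix.mul_one, smul_add, Matrix.mul_smul, smul_smul,
        ← Matrix.mul_assoc, ← pow_succ, ← pow_succ]
    rw [add_assoc, ← e]
    exact ih

theorem IsResolvent.expand_apply (hG : IsResolvent π A α G) (K : ℕ) (i j : V) :
    G i j = ∑ k ∈ Finset.range K, α ^ k * (A ^ k) i j + α ^ K * (A ^ K * G) i j := by
  have := congrFun (congrFun (hG.expand K) i) j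
  rw [Matrix.add_apply, Matrix.sum_apply] at this
  simpa [Matrix.smul_apply] using this

theorem IsResolvent.rem_nonneg (hG : IsResolvent π A α G) (h : RevChain π A) (K : ℕ) (i j : V) :
    0 ≤ (A ^ K * G) i j := by
  rw [Matrix.mul_apply]
  exact Finset.sum_nonneg fun k _ => mul_nonneg (h.pow_nonneg K i k) (hG.nonneg k j)

theorem IsResolvent.rem_row (hG : IsResolvent π A α G) (h : RevChain π A) (K : ℕ) (i : V) :
    ∑ j, (A ^ K * G) i j = 1 / (1 - α) := by
  simp only [Matrix.mul_apply]
  rw [Finset.sum_comm]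
  simp only [← Finset.mul_sum, hG.row]
  rw [← Finset.sum_mul, h.pow_row, one_mul]

/-- Finite geometric sums of powers are dominated by the resolvent, applied to a
nonnegative vector. -/
theorem IsResolvent.geom_le (hG : IsResolvent π A α G) (h : RevChain π A) (hα0 : 0 ≤ α)
    (w : V → ℝ) (hw : ∀ i, 0 ≤ w i) (K : ℕ) (i : V) :
    ∑ k ∈ Finset.range K, α ^ k * ∑ j, (A ^ k) i j * w j ≤ ∑ j, G i j * w j := by
  have e : ∑ j, G i j * w j
      = ∑ k ∈ Finset.range K, α ^ k * ∑ j, (A ^ k) i j * w j
        + α ^ K * ∑ j, (A ^ K * G) i j * w j := by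
    have : ∀ j, G i j * w j = ∑ k ∈ Finset.range K, α ^ k * ((A ^ k) i j * w j)
        + α ^ K * ((A ^ K * G) i j * w j) := by
      intro j
      conv_lhs => rw [hG.expand_apply K i j]
      rw [add_mul, Finset.sum_mul]
      congr 1
      · exact Finset.sum_congr rfl fun k _ => by ring
      · ring
    simp only [this, Finset.sum_add_distrib]
    congr 1
    · rw [Finset.sum_comm]
      exact Finset.sum_congr rfl fun k _ => by rw [Finset.mul_sum]
    · rw [Finset.mul_sum]
  rw [e]
  have : 0 ≤ α ^ K * ∑ j, (A ^ K * G) i j * w j :=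
    mul_nonneg (pow_nonneg hα0 K)
      (Finset.sum_nonneg fun j _ => mul_nonneg (hG.rem_nonneg h K i j) (hw j))
  linarith

/-- The energy bound: for `0 ≤ f ≤ 1` and `hh = (1-α) G f`, the potential of the one-step
squared increments of `hh` is at most `1/α` (stated without division). -/
theorem IsResolvent.energy (hG : IsResolvent π A α G) (h : RevChain π A) (hα1 : α < 1)
    (f : V → ℝ) (hf0 : ∀ i, 0 ≤ f i) (hf1 : ∀ i, f i ≤ 1) (i : V) :
    α * ∑ k, G i k * ∑ j, A k j *
        ((1 - α) * ∑ l, G j l * f l - (1 - α) * ∑ l, G k l * f l) ^ 2 ≤ 1 := by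
  set hh : V → ℝ := fun k => (1 - α) * ∑ l, G k l * f l with hhdef
  set g : V → ℝ := fun k => 2 * f k * hh k - hh k ^ 2 with hgdef
  set Cg : V → ℝ := fun k => (1 - α) * ∑ l, G k l * g l with hCg
  set W : V → ℝ := fun k => Cg k - hh k ^ 2 with hW
  set Γ : V → ℝ := fun k => ∑ j, A k j * (hh j - hh k) ^ 2 with hΓ
  -- N applied to a resolvent potential
  have hN : ∀ (u : V → ℝ) (k : V),
      (1 - α) * ∑ l, G k l * u l - α * ∑ j, A k j * ((1 - α) * ∑ l, G j l * u l)
        = (1 - α) * u k := by
    intro u k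
    have e1 : ((1 - α • A) *ᵥ (G *ᵥ u)) k = u k := by
      rw [Matrix.mulVec_mulVec, hG.left, Matrix.one_mulVec]
    rw [resolvent_op_apply] at e1
    simp only [mulVec_apply'] at e1
    have e2 : ∑ j, A k j * ((1 - α) * ∑ l, G j l * u l)
        = (1 - α) * ∑ j, A k j * ∑ l, G j l * u l := by
      rw [Finset.mul_sum]
      exact Finset.sum_congr rfl fun j _ => by ring
    rw [e2]
    linear_combination (1 - α) * e1
  have E1 : ∀ k, Cg k - α * ∑ j, A k j * Cg j = (1 - α) * g k := fun k => hN g k
  have E2 : ∀ k, hh k - α * ∑ j, A k j * hh j = (1 - α) * f k := fun k => hN f k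
  -- the key identity
  have hkey : ∀ k, W k - α * ∑ j, A k j * W j = α * Γ k := by
    intro k
    have s1 : ∑ j, A k j * W j = ∑ j, A k j * Cg j - ∑ j, A k j * hh j ^ 2 := by
      rw [← Finset.sum_sub_distrib]
      exact Finset.sum_congr rfl fun j _ => by simp only [hW]; ring
    have s2 : Γ k = ∑ j, A k j * hh j ^ 2 - 2 * hh k * ∑ j, A k j * hh j + hh k ^ 2 := by
      have : ∀ j, A k j * (hh j - hh k) ^ 2
          = A k j * hh j ^ 2 - 2 * hh k * (A k j * hh j) + hh k ^ 2 * A k j := by
        intro j; ring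
      simp only [hΓ, this, Finset.sum_add_distrib, Finset.sum_sub_distrib, ← Finset.mul_sum,
        h.A_row, mul_one]
    rw [s1, s2]
    have e1 := E1 k
    have e2 := E2 k
    simp only [hW, hgdef] at e1 ⊢
    linear_combination e1 - 2 * hh k * e2
  -- apply the resolvent
  have hGW : ∀ k, α * ∑ l, G k l * Γ l = W k := by
    intro k
    have e1 : (G *ᵥ ((1 - α • A) *ᵥ W)) k = W k := by
      rw [Matrix.mulVec_mulVec, hG.right, Matrix.one_mulVec]
    have e2 : (1 - α • A) *ᵥ W = fun l => α * Γ l := by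
      funext l
      rw [resolvent_op_apply]
      exact hkey l
    rw [e2] at e1
    simp only [mulVec_apply'] at e1
    rw [← e1, Finset.mul_sum]
    exact Finset.sum_congr rfl fun l _ => by ring
  show α * ∑ k, G i k * Γ k ≤ 1
  rw [hGW i]
  -- W i ≤ Cg i ≤ 1
  have hg1 : ∀ l, g l ≤ 1 := by
    intro l
    have h0 := hf0 l
    have h1 := hf1 l
    simp only [hgdef]
    nlinarith [sq_nonneg (f l - hh l)]
  have hrow := hG.row i
  have hCg1 : Cg i ≤ 1 := by
    have : ∑ l, G i l * g l ≤ ∑ l, G i l * 1 :=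
      Finset.sum_le_sum fun l _ => mul_le_mul_of_nonneg_left (hg1 l) (hG.nonneg i l)
    simp only [mul_one] at this
    rw [hrow] at this
    have hpos : 0 < 1 - α := by linarith
    simp only [hCg]
    calc (1 - α) * ∑ l, G i l * g l ≤ (1 - α) * (1 / (1 - α)) :=
          mul_le_mul_of_nonneg_left this hpos.le
      _ = 1 := by field_simp
  simp only [hW]
  nlinarith [sq_nonneg (hh i)]

/-- The smoothing kernel, that is (1-α) times G, applied to a function. -/
noncomputable def smooth (α : ℝ) (G : Matrix V V ℝ) (f : V → ℝ) (i : V) : ℝ :=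
  (1 - α) * ∑ l, G i l * f l

theorem smooth_nonneg (hG : IsResolvent π A α G) (hα1 : α < 1) {f : V → ℝ}
    (hf0 : ∀ i, 0 ≤ f i) (i : V) : 0 ≤ smooth α G f i := by
  unfold smooth
  exact mul_nonneg (by linarith)
    (Finset.sum_nonneg fun l _ => mul_nonneg (hG.nonneg i l) (hf0 l))

theorem smooth_le_one (hG : IsResolvent π A α G) (hα1 : α < 1) {f : V → ℝ}
    (hf1 : ∀ i, f i ≤ 1) (i : V) : smooth α G f i ≤ 1 := by
  unfold smooth
  have : ∑ l, G i l * f l ≤ ∑ l, G i l * 1 :=
    Finset.sum_le_sum fun l _ => mul_le_mul_of_nonneg_left (hf1 l) (hG.nonneg i l)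
  simp only [mul_one] at this
  rw [hG.row i] at this
  have hpos : 0 < 1 - α := by linarith
  calc (1 - α) * ∑ l, G i l * f l ≤ (1 - α) * (1 / (1 - α)) :=
        mul_le_mul_of_nonneg_left this hpos.le
    _ = 1 := by field_simp

/-- Row sums of the smoothing kernel. -/
theorem smooth_row (hG : IsResolvent π A α G) (hα1 : α < 1) (i : V) :
    ∑ l, (1 - α) * G i l = 1 := by
  rw [← Finset.mul_sum, hG.row i]
  have hpos : (1 : ℝ) - α ≠ 0 := by linarith
  field_simp

end Vale.Agent.H37
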